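import Vale.Agent.Lib.P254U.OneA

/-!
P254U/C2/Facts: elementary facts about the class `Dens` (`Dens.le_one` is in `OneA1.lean`).
-/

open MeasureTheory Set

namespace Vale.Agent.P254U

variable {f : ℝ → ℝ}

/-- `f` is bounded, a.e. strongly measurable on `(0,∞)` (`f ∘ max 0` is antitone, hence
measurable) and vanishes beyond some `H`, so the product with a locally integrable function is
integrable. -/
theorem Dens.integrableOn_mul (hf : Dens f) {φ : ℝ → ℝ}
    (hφ : ∀ H : ℝ, 0 < H → IntegrableOn φ (Ioc 0 H)) :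
    IntegrableOn (fun t => φ t * f t) (Ioi 0) := by
  obtain ⟨H, hH, hs⟩ := hf.supp
  rw [← Ioc_union_Ioi_eq_Ioi hH.le]
  refine IntegrableOn.union ?_ ?_
  · have hm : AEStronglyMeasurable f (volume.restrict (Ioc 0 H)) :=
      (hf.integrableOn_Ioi.mono_set Ioc_subset_Ioi_self).aestronglyMeasurable
    refine (hφ H hH).norm.mono' ((hφ H hH).aestronglyMeasurable.mul hm) ?_
    rw [ae_restrict_iff' measurableSet_Ioc]
    refine Filter.Eventually.of_forall fun t ht => ?_
    rw [norm_mul]
    have h1 : ‖f t‖ ≤ 1 := by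
      rw [Real.norm_eq_abs, abs_of_nonneg (hf.nonneg t ht.1.le)]
      exact hf.le_one ht.1.le
    exact mul_le_of_le_one_right (norm_nonneg _) h1
  · have h0 : IntegrableOn (fun _ : ℝ => (0 : ℝ)) (Ioi H) := integrableOn_zero
    refine h0.congr_fun (fun t ht => ?_) measurableSet_Ioi
    change (0 : ℝ) = φ t * f t
    rw [hs t ht, mul_zero]

/-- `1 - y ≤ exp (-y) ≤ f y` for `y < 1`. -/
theorem Dens.one_sub_le (hf : Dens f) {y : ℝ} (h : 0 ≤ y) : 1 - y ≤ f y := by
  rcases lt_or_ge y 1 with h1 | h1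
  · refine le_trans ?_ (hf.exp_neg_le h h1)
    have := Real.add_one_le_exp (-y)
    linarith
  · exact le_trans (by linarith) (hf.nonneg y h)

private theorem C2Facts_id_one : ∫ t in Ioc (0 : ℝ) 1, (t - 1) = -1 / 2 := by
  rw [← intervalIntegral.integral_of_le zero_le_one]
  rw [intervalIntegral.integral_sub (by simp) (by simp)]
  simp
  norm_num

/-- the mean is at least `1/2`: `(t - 1) * (f t - 1_{t ≤ 1}) ≥ 0` -/
theorem Dens.half_le_mean (hf : Dens f) : 1 / 2 ≤ ∫ t in Ioi (0 : ℝ), t * f t := by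
  have hi1 : IntegrableOn (fun t => (t - 1) * f t) (Ioi 0) := by
    have := hf.integrable_id.sub hf.integrableOn_Ioi
    refine this.congr (Filter.Eventually.of_forall fun t => ?_)
    simp only [Pi.sub_apply]
    ring
  have hi2 : IntegrableOn ((Ioc (0 : ℝ) 1).indicator fun t : ℝ => t - 1) (Ioi 0) := by
    rw [IntegrableOn, integrable_indicator_iff measurableSet_Ioc]
    have h1 : IntegrableOn (fun t : ℝ => t - 1) (Ioc 0 1) :=
      ((continuous_id.sub continuous_const).intervalIntegrable (μ := volume) 0 1).1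
    exact IntegrableOn.mono_measure h1 Measure.restrict_le_self
  have h1 : ∫ t in Ioi (0 : ℝ), (t - 1) * f t = (∫ t in Ioi (0 : ℝ), t * f t) - 1 := by
    have h0 : (∫ t in Ioi (0 : ℝ), t * f t) - 1 =
        (∫ t in Ioi (0 : ℝ), t * f t) - ∫ t in Ioi (0 : ℝ), f t := by rw [hf.mass]
    rw [h0, ← integral_sub hf.integrable_id hf.integrableOn_Ioi]
    refine integral_congr_ae (Filter.Eventually.of_forall fun t => ?_)
    simp only
    ring
  have h2 : ∫ t in Ioi (0 : ℝ), (Ioc (0 : ℝ) 1).indicator (fun t : ℝ => t - 1) t = -1 / 2 := by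
    rw [setIntegral_indicator measurableSet_Ioc, ← C2Facts_id_one]
    congr 2
    ext t
    simp only [mem_inter_iff, mem_Ioi, mem_Ioc]
    constructor
    · exact fun h => h.2
    · exact fun h => ⟨h.1, h⟩
  have h3 : ∫ t in Ioi (0 : ℝ), (Ioc (0 : ℝ) 1).indicator (fun t : ℝ => t - 1) t ≤
      ∫ t in Ioi (0 : ℝ), (t - 1) * f t := by
    refine setIntegral_mono_on hi2 hi1 measurableSet_Ioi fun t ht => ?_
    have ht0 : (0 : ℝ) < t := ht
    by_cases h4 : t ≤ 1
    · rw [indicator_of_mem (show t ∈ Ioc (0 : ℝ) 1 from ⟨ht0, h4⟩)]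
      have h5 := hf.le_one ht0.le
      nlinarith
    · rw [indicator_of_notMem (fun h => h4 h.2)]
      have h5 := hf.nonneg t ht0.le
      exact mul_nonneg (by linarith) h5
  rw [h1, h2] at h3
  linarith

private theorem C2Facts_exp_int : IntegrableOn (fun t : ℝ => Real.exp (-t)) (Ioi 0) := by
  have h := Real.GammaIntegral_convergent (s := 1) one_pos
  refine h.congr_fun (fun t _ => ?_) measurableSet_Ioi
  simp

private theorem C2Facts_texp_int : IntegrableOn (fun t : ℝ => t * Real.exp (-t)) (Ioi 0) := by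
  have h := Real.GammaIntegral_convergent (s := 2) two_pos
  refine h.congr_fun (fun t _ => ?_) measurableSet_Ioi
  have e : (2 : ℝ) - 1 = 1 := by norm_num
  simp only [e, Real.rpow_one]
  ring

private theorem C2Facts_texp_val : ∫ t in Ioi (0 : ℝ), t * Real.exp (-t) = 1 := by
  have h := Real.Gamma_eq_integral (s := 2) two_pos
  rw [Real.Gamma_two] at h
  rw [h]
  refine setIntegral_congr_fun measurableSet_Ioi fun t _ => ?_
  have e : (2 : ℝ) - 1 = 1 := by norm_num
  simp only [e, Real.rpow_one]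
  ring

/-- the mean is at most `1`: `f - exp (-t)` changes sign once, from `+` to `-` -/
theorem Dens.mean_le_one (hf : Dens f) : ∫ t in Ioi (0 : ℝ), t * f t ≤ 1 := by
  obtain ⟨H, hH, hs⟩ := hf.supp
  obtain ⟨S, hS⟩ : ∃ S : Set ℝ, S = {t | 0 < t ∧ Real.exp (-t) ≤ f t} := ⟨_, rfl⟩
  have hbdd : BddAbove S := by
    refine ⟨H, fun t ht => ?_⟩
    rw [hS] at ht
    by_contra hcon
    have h1 := hs t (not_le.1 hcon)
    have h2 := Real.exp_pos (-t)
    have h3 := ht.2
    linarith
  have hdown : ∀ s t, 0 < s → s ≤ t → t ∈ S → s ∈ S := by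
    intro s t hs0 hst ht
    rw [hS] at ht ⊢
    refine ⟨hs0, ?_⟩
    have h1 := hf.rpow_le hs0 hst
    refine le_trans ?_ h1
    have h2 : Real.exp (-s) = Real.exp (-t) ^ (s / t) := by
      rw [← Real.exp_mul]
      congr 1
      have : t ≠ 0 := ht.1.ne'
      field_simp
    rw [h2]
    exact Real.rpow_le_rpow (Real.exp_pos _).le ht.2 (by have := ht.1; positivity)
  obtain ⟨T, hT⟩ : ∃ T : ℝ, T = sSup S := ⟨_, rfl⟩
  have hlow : ∀ t, 0 < t → t < T → Real.exp (-t) ≤ f t := by
    intro t h0 h1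
    rw [hT] at h1
    have hne : S.Nonempty := by
      by_contra hcon
      rw [not_nonempty_iff_eq_empty] at hcon
      rw [hcon, Real.sSup_empty] at h1
      linarith
    obtain ⟨u, hu, hu1⟩ := exists_lt_of_lt_csSup hne h1
    have h2 := hdown t u h0 hu1.le hu
    rw [hS] at h2
    exact h2.2
  have hhigh : ∀ t, 0 < t → T < t → f t ≤ Real.exp (-t) := by
    intro t h0 h1
    by_contra hcon
    have h2 : t ∈ S := by
      rw [hS]
      exact ⟨h0, (not_le.1 hcon).le⟩
    have h3 := le_csSup hbdd h2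
    rw [← hT] at h3
    linarith
  have hi1 : IntegrableOn (fun t => (t - T) * (f t - Real.exp (-t))) (Ioi 0) := by
    have h1 := ((hf.integrable_id.sub C2Facts_texp_int).sub
      ((hf.integrableOn_Ioi.sub C2Facts_exp_int).const_mul T))
    refine h1.congr (Filter.Eventually.of_forall fun t => ?_)
    simp only [Pi.sub_apply]
    ring
  have h1 : ∫ t in Ioi (0 : ℝ), (t - T) * (f t - Real.exp (-t)) =
      (∫ t in Ioi (0 : ℝ), t * f t) - 1 := by
    have h2 : ∫ t in Ioi (0 : ℝ), (t - T) * (f t - Real.exp (-t)) =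
        ((∫ t in Ioi (0 : ℝ), t * f t) - ∫ t in Ioi (0 : ℝ), t * Real.exp (-t)) -
          T * ((∫ t in Ioi (0 : ℝ), f t) - ∫ t in Ioi (0 : ℝ), Real.exp (-t)) := by
      have e1 : IntegrableOn (fun t => t * f t - t * Real.exp (-t)) (Ioi 0) :=
        hf.integrable_id.sub C2Facts_texp_int
      have e2 : IntegrableOn (fun t => T * (f t - Real.exp (-t))) (Ioi 0) :=
        (hf.integrableOn_Ioi.sub C2Facts_exp_int).const_mul T
      rw [← integral_sub hf.integrable_id C2Facts_texp_int,
        ← integral_sub hf.integrableOn_Ioi C2Facts_exp_int, ← integral_const_mul,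
        ← integral_sub e1 e2]
      refine integral_congr_ae (Filter.Eventually.of_forall fun t => ?_)
      simp only
      ring
    rw [h2, hf.mass, C2Facts_texp_val, integral_exp_neg_Ioi_zero]
    ring
  have h2 : ∫ t in Ioi (0 : ℝ), (t - T) * (f t - Real.exp (-t)) ≤ 0 := by
    refine setIntegral_nonpos measurableSet_Ioi fun t ht => ?_
    have ht0 : (0 : ℝ) < t := ht
    rcases lt_trichotomy t T with h3 | h3 | h3
    · have h4 := hlow t ht0 h3
      exact mul_nonpos_of_nonpos_of_nonneg (by linarith) (by linarith)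
    · rw [h3, sub_self, zero_mul]
    · have h4 := hhigh t ht0 h3
      exact mul_nonpos_of_nonneg_of_nonpos (by linarith) (by linarith)
  rw [h1] at h2
  linarith

end Vale.Agent.P254U
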