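import Vale.Agent.Lib.P254U.C2.Facts

/-!
P254U/C2/Layer: the layer cake inequality.
-/

open MeasureTheory Set

namespace Vale.Agent.P254U

/-- Layer cake: `f t = ∫_0^1 1[w < f t] dw` for `t > 0` (`0 ≤ f t ≤ 1`), so by Fubini
`∫ k f = ∫_{w ∈ (0,1)} (∫_{t > 0} k t * 1[w < f t] dt) dw`. For fixed `w ∈ (0,1)` the set
`{t > 0 | w < f t}` is, up to its right end point, the interval `(0, y]` with
`y = sSup {t | 0 ≤ t ∧ w < f t}` (`f` is antitone on `[0,∞)`, the set contains `0` and is bounded by `H`), and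
`1 - w ≤ y` because `w < 1 - t ≤ f t` for `0 ≤ t < 1 - w` (`Dens.one_sub_le`). So the inner
integral is `∫ t in Ioc 0 y, k t ≥ g w`. -/
theorem Dens.layer {f : ℝ → ℝ} (hf : Dens f) (k : ℝ → ℝ) (hk : Measurable k)
    (hki : ∀ H : ℝ, 0 < H → IntegrableOn k (Ioc 0 H)) (g : ℝ → ℝ)
    (hg : IntegrableOn g (Ioo 0 1))
    (h : ∀ w ∈ Ioo (0 : ℝ) 1, ∀ y, 1 - w ≤ y → g w ≤ ∫ t in Ioc 0 y, k t) :
    ∫ w in Ioo (0 : ℝ) 1, g w ≤ ∫ t in Ioi (0 : ℝ), k t * f t := by
  obtain ⟨H, hH0, hH⟩ := hf.supp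
  have hanti : Antitone fun t => f (max 0 t) := fun a b hab =>
    hf.anti (mem_Ici.mpr (le_max_left 0 a)) (mem_Ici.mpr (le_max_left 0 b))
      (max_le_max le_rfl hab)
  have hfm : Measurable fun t => f (max 0 t) := hanti.measurable
  have hfe : ∀ t : ℝ, 0 < t → f (max 0 t) = f t := fun t ht => by rw [max_eq_right ht.le]
  have hk' : Measurable ((Ioc 0 H).indicator k) := hk.indicator measurableSet_Ioc
  have hki' : Integrable ((Ioc 0 H).indicator k) (volume.restrict (Ioi 0)) :=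
    ((integrable_indicator_iff measurableSet_Ioc).2 (hki H hH0)).mono_measure
      Measure.restrict_le_self
  have hS : MeasurableSet {p : ℝ × ℝ | p.2 < f (max 0 p.1)} :=
    measurableSet_lt measurable_snd (hfm.comp measurable_fst)
  have hΦ : Integrable (Function.uncurry fun t w : ℝ =>
      {p : ℝ × ℝ | p.2 < f (max 0 p.1)}.indicator (fun p => (Ioc 0 H).indicator k p.1) (t, w))
      ((volume.restrict (Ioi 0)).prod (volume.restrict (Ioo 0 1))) :=
    (hki'.comp_fst (volume.restrict (Ioo (0 : ℝ) 1))).indicator hS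
  have hsw := integral_integral_swap hΦ
  have hL : ∀ t ∈ Ioi (0 : ℝ), k t * f t = ∫ w in Ioo (0 : ℝ) 1,
      {p : ℝ × ℝ | p.2 < f (max 0 p.1)}.indicator (fun p => (Ioc 0 H).indicator k p.1) (t, w) := by
    intro t ht
    have ht' : (0 : ℝ) < t := ht
    have e1 : ∀ w : ℝ, {p : ℝ × ℝ | p.2 < f (max 0 p.1)}.indicator
        (fun p => (Ioc 0 H).indicator k p.1) (t, w) =
        (Iio (f t)).indicator (fun _ => (Ioc 0 H).indicator k t) w := fun w => by
      by_cases hw : w < f t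
      · rw [indicator_of_mem (show w ∈ Iio (f t) from hw), indicator_of_mem]
        show w < f (max 0 t)
        rwa [hfe t ht']
      · rw [indicator_of_notMem (show w ∉ Iio (f t) from hw), indicator_of_notMem]
        show ¬ w < f (max 0 t)
        rwa [hfe t ht']
    simp only [e1]
    rw [setIntegral_indicator measurableSet_Iio, setIntegral_const]
    have e2 : Ioo (0 : ℝ) 1 ∩ Iio (f t) = Ioo 0 (f t) := by
      ext w
      simp only [mem_inter_iff, mem_Ioo, mem_Iio]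
      have := hf.le_one ht'.le
      constructor
      · rintro ⟨⟨h1, h2⟩, h3⟩
        exact ⟨h1, h3⟩
      · rintro ⟨h1, h2⟩
        exact ⟨⟨h1, by linarith⟩, h2⟩
    rw [e2, Real.volume_real_Ioo_of_le (hf.nonneg t ht'.le), sub_zero, smul_eq_mul]
    by_cases htH : t ≤ H
    · rw [indicator_of_mem (show t ∈ Ioc 0 H from ⟨ht', htH⟩), mul_comm]
    · rw [hH t (not_le.1 htH), mul_zero, zero_mul]
  rw [setIntegral_congr_fun measurableSet_Ioi hL, hsw]
  refine setIntegral_mono_on hg hΦ.integral_prod_right measurableSet_Ioo fun w hw => ?_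
  have hne : {t | 0 ≤ t ∧ w < f t}.Nonempty := ⟨0, le_rfl, by rw [hf.zero]; exact hw.2⟩
  have hbd : ∀ t ∈ {t | 0 ≤ t ∧ w < f t}, t ≤ H := by
    intro t ht
    by_contra hc
    have h1 := ht.2
    rw [hH t (not_le.1 hc)] at h1
    exact absurd hw.1 (not_lt.2 h1.le)
  have hbdd : BddAbove {t | 0 ≤ t ∧ w < f t} := ⟨H, hbd⟩
  have hyH : sSup {t | 0 ≤ t ∧ w < f t} ≤ H := csSup_le hne hbd
  have hy0 : 0 ≤ sSup {t | 0 ≤ t ∧ w < f t} :=
    le_csSup hbdd ⟨le_rfl, by rw [hf.zero]; exact hw.2⟩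
  have hy1 : 1 - w ≤ sSup {t | 0 ≤ t ∧ w < f t} := by
    refine le_of_forall_lt fun t ht => ?_
    by_cases ht0 : 0 ≤ (t + (1 - w)) / 2
    · have h1 := hf.one_sub_le ht0
      have h2 : (t + (1 - w)) / 2 ≤ sSup {t | 0 ≤ t ∧ w < f t} :=
        le_csSup hbdd ⟨ht0, by linarith⟩
      linarith
    · linarith [hw.2]
  refine (h w hw _ hy1).trans (le_of_eq ?_)
  have e3 : ∀ t ∈ Ioi (0 : ℝ), {p : ℝ × ℝ | p.2 < f (max 0 p.1)}.indicator
      (fun p => (Ioc 0 H).indicator k p.1) (t, w) =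
      ({t : ℝ | w < f (max 0 t)}).indicator ((Ioc 0 H).indicator k) t := fun t _ => rfl
  have hA : MeasurableSet {t : ℝ | w < f (max 0 t)} := measurableSet_lt measurable_const hfm
  show _ = ∫ t in Ioi (0 : ℝ), {p : ℝ × ℝ | p.2 < f (max 0 p.1)}.indicator
      (fun p => (Ioc 0 H).indicator k p.1) (t, w)
  rw [setIntegral_congr_fun measurableSet_Ioi e3, setIntegral_indicator hA]
  have e4 : (Ioi (0 : ℝ) ∩ {t : ℝ | w < f (max 0 t)} : Set ℝ) =ᵐ[volume]
      Ioc 0 (sSup {t | 0 ≤ t ∧ w < f t}) := by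
    have h1 : Ioo 0 (sSup {t | 0 ≤ t ∧ w < f t}) ⊆ Ioi (0 : ℝ) ∩ {t : ℝ | w < f (max 0 t)} := by
      rintro t ⟨ht0, ht1⟩
      refine ⟨ht0, ?_⟩
      obtain ⟨u, ⟨hu0, hu1⟩, hu2⟩ := exists_lt_of_lt_csSup hne ht1
      show w < f (max 0 t)
      rw [hfe t ht0]
      exact hu1.trans_le (hf.anti (mem_Ici.mpr ht0.le) (mem_Ici.mpr hu0) hu2.le)
    have h2 : Ioi (0 : ℝ) ∩ {t : ℝ | w < f (max 0 t)} ⊆
        Ioc 0 (sSup {t | 0 ≤ t ∧ w < f t}) := by
      rintro t ⟨ht0, ht1⟩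
      refine ⟨ht0, le_csSup hbdd ⟨le_of_lt ht0, ?_⟩⟩
      have h3 : w < f (max 0 t) := ht1
      rwa [hfe t ht0] at h3
    exact Filter.EventuallyLE.antisymm (LE.le.eventuallyLE h2)
      ((Ioo_ae_eq_Ioc (μ := volume)).symm.le.trans (LE.le.eventuallyLE h1))
  rw [setIntegral_congr_set e4]
  refine setIntegral_congr_fun measurableSet_Ioc fun t ht => ?_
  show k t = (Ioc 0 H).indicator k t
  rw [indicator_of_mem (show t ∈ Ioc 0 H from ⟨ht.1, ht.2.trans hyH⟩)]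

end Vale.Agent.P254U
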