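import Mathlib

/-!
P254U/C2/Log: two rational majorants.

`c2_p`: `-log v ≤ 0.2896/v + 0.56928 - 0.9796 v + 0.138 v^2` (times `v`), contacts `1/2`, `2`.
`c2_q`: `v (v - 1 - log v - (1/2) log^2 v) ≤ a + b v + c v^2 + d v^3 + J v` with
`a = -0.1166`, `b = 0.344115`, `c = -0.34343`, `d = 0.116925` (contacts `4/5`, `2`), where `J` is a
nonincreasing correction supported in `(0, 0.03)`.
-/

open Set

namespace Vale.Agent.P254U

private theorem C2Log_deriv (u : ℝ) (hu : 0 < u) :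
    HasDerivAt (fun u : ℝ => 1 / (3 * u) + 1 / 2 - u + u ^ 2 / 6 + Real.log u)
      ((u - 1) ^ 3 / (3 * u ^ 2)) u := by
  have h1 : HasDerivAt (fun u : ℝ => 1 / (3 * u)) (-(3 * 1) / (3 * u) ^ 2) u := by
    have := ((hasDerivAt_id u).const_mul (3 : ℝ)).fun_inv (by simp only [id]; positivity)
    simp only [one_div]
    exact this
  have h2 : HasDerivAt (fun u : ℝ => u ^ 2 / 6) (2 * u / 6) u := by
    have := (hasDerivAt_pow 2 u).div_const 6
    simpa using this
  have h3 := (((h1.add_const (1 / 2)).sub (hasDerivAt_id u)).add h2).add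
    (Real.hasDerivAt_log hu.ne')
  refine h3.congr_deriv ?_
  field_simp
  ring

/-- fourth order contact at `1` -/
theorem c2_log_lower (u : ℝ) (hu : 0 < u) :
    -Real.log u ≤ 1 / (3 * u) + 1 / 2 - u + u ^ 2 / 6 := by
  have hc : ∀ s : Set ℝ, s ⊆ Ioi 0 →
      ContinuousOn (fun u : ℝ => 1 / (3 * u) + 1 / 2 - u + u ^ 2 / 6 + Real.log u) s := by
    intro s hs x hx
    exact (C2Log_deriv x (hs hx)).continuousAt.continuousWithinAt
  have h1 : (0 : ℝ) ≤ 1 / (3 * u) + 1 / 2 - u + u ^ 2 / 6 + Real.log u := by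
    have e1 : (1 : ℝ) / (3 * 1) + 1 / 2 - 1 + 1 ^ 2 / 6 + Real.log 1 = 0 := by
      rw [Real.log_one]; norm_num
    rcases le_total u 1 with h | h
    · have hanti : AntitoneOn (fun u : ℝ => 1 / (3 * u) + 1 / 2 - u + u ^ 2 / 6 + Real.log u)
          (Icc u 1) := by
        refine antitoneOn_of_deriv_nonpos (convex_Icc _ _)
          (hc _ fun x hx => lt_of_lt_of_le hu hx.1) ?_ ?_
        · intro x hx
          rw [interior_Icc] at hx
          exact (C2Log_deriv x (hu.trans hx.1)).differentiableAt.differentiableWithinAt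
        · intro x hx
          rw [interior_Icc] at hx
          have hx0 : 0 < x := hu.trans hx.1
          rw [(C2Log_deriv x hx0).deriv]
          have : (x - 1) ^ 3 ≤ 0 := by
            have h5 : 0 ≤ (1 - x) ^ 3 := pow_nonneg (by linarith [hx.2]) 3
            nlinarith [h5]
          exact div_nonpos_of_nonpos_of_nonneg this (by positivity)
      have := hanti (left_mem_Icc.mpr h) (right_mem_Icc.mpr h) h
      simp only at this
      rw [e1] at this
      exact this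
    · have hmono : MonotoneOn (fun u : ℝ => 1 / (3 * u) + 1 / 2 - u + u ^ 2 / 6 + Real.log u)
          (Icc 1 u) := by
        refine monotoneOn_of_deriv_nonneg (convex_Icc _ _)
          (hc _ fun x hx => lt_of_lt_of_le one_pos hx.1) ?_ ?_
        · intro x hx
          rw [interior_Icc] at hx
          exact (C2Log_deriv x (one_pos.trans hx.1)).differentiableAt.differentiableWithinAt
        · intro x hx
          rw [interior_Icc] at hx
          have hx0 : 0 < x := one_pos.trans hx.1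
          rw [(C2Log_deriv x hx0).deriv]
          have : 0 ≤ (x - 1) ^ 3 := pow_nonneg (by linarith [hx.1]) 3
          positivity
      have := hmono (left_mem_Icc.mpr h) (right_mem_Icc.mpr h) h
      simp only at this
      rw [e1] at this
      exact this
  linarith

private theorem C2Log_l1 : (0.69314 : ℝ) ≤ Real.log 2 := by
  have := Real.log_two_gt_d9
  linarith

private theorem C2Log_l2 : Real.log 2 ≤ (0.69315 : ℝ) := by
  have := Real.log_two_lt_d9
  linarith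

/-- the majorant of `-log v` -/
theorem c2_p (v : ℝ) (hv : 0 < v) :
    0 ≤ 0.2896 + 0.56928 * v - 0.9796 * v ^ 2 + 0.138 * v ^ 3 + v * Real.log v := by
  have l1 := C2Log_l1
  have l2 := C2Log_l2
  rcases le_total v (7 / 10) with h | h
  · -- contact 1/2
    have h1 := c2_log_lower (2 * v) (by positivity)
    rw [Real.log_mul two_ne_zero hv.ne'] at h1
    have h2 : v * (-(Real.log 2 + Real.log v)) ≤
        v * (1 / (3 * (2 * v)) + 1 / 2 - 2 * v + (2 * v) ^ 2 / 6) :=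
      mul_le_mul_of_nonneg_left h1 hv.le
    have h3 : v * (1 / (3 * (2 * v)) + 1 / 2 - 2 * v + (2 * v) ^ 2 / 6) =
        1 / 6 + v / 2 - 2 * v ^ 2 + 2 / 3 * v ^ 3 := by
      field_simp
      try ring
    rw [h3] at h2
    have h4 : v * Real.log 2 ≤ v * 0.69315 := mul_le_mul_of_nonneg_left l2 hv.le
    have h5 : 0 ≤ (v - 1 / 2) ^ 2 * (0.4917 - 0.52867 * v) :=
      mul_nonneg (sq_nonneg _) (by nlinarith)
    nlinarith [h2, h4, h5, hv, sq_nonneg (v - 1 / 2), mul_nonneg hv.le (sub_nonneg.mpr h)]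
  rcases le_total v (7 / 5) with h' | h'
  · have h1 := c2_log_lower v hv
    have h2 : v * (-Real.log v) ≤ v * (1 / (3 * v) + 1 / 2 - v + v ^ 2 / 6) :=
      mul_le_mul_of_nonneg_left h1 hv.le
    have h3 : v * (1 / (3 * v) + 1 / 2 - v + v ^ 2 / 6) =
        1 / 3 + v / 2 - v ^ 2 + 1 / 6 * v ^ 3 := by
      field_simp
      try ring
    rw [h3] at h2
    nlinarith [h2, mul_nonneg (sub_nonneg.mpr h) (sub_nonneg.mpr h'), hv,
      mul_nonneg hv.le (mul_nonneg (sub_nonneg.mpr h) (sub_nonneg.mpr h'))]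
  · have h1 := c2_log_lower (v / 2) (by positivity)
    rw [Real.log_div hv.ne' two_ne_zero] at h1
    have h2 : v * (-(Real.log v - Real.log 2)) ≤
        v * (1 / (3 * (v / 2)) + 1 / 2 - v / 2 + (v / 2) ^ 2 / 6) :=
      mul_le_mul_of_nonneg_left h1 hv.le
    have h3 : v * (1 / (3 * (v / 2)) + 1 / 2 - v / 2 + (v / 2) ^ 2 / 6) =
        2 / 3 + v / 2 - v ^ 2 / 2 + 1 / 24 * v ^ 3 := by
      field_simp
      try ring
    rw [h3] at h2
    have h4 : v * 0.69314 ≤ v * Real.log 2 := mul_le_mul_of_nonneg_left l1 hv.le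
    have h5 : 0 ≤ (v - 2) ^ 2 * ((289 / 3000) * v - (707 / 7500)) :=
      mul_nonneg (sq_nonneg _) (by nlinarith)
    nlinarith [h2, h4, h5, hv]

private theorem C2Log_J1 (v : ℝ) (h1 : 0 ≤ v) (h2 : v ≤ (1 / 128)) :
    0 ≤ 0 + (64949801 / 5000000000) * v + (-134343 / 100000) * v ^ 2 + (4677 / 40000) * v ^ 3 := by
  have hx : 0 ≤ v - 0 := by linarith
  have hy : 0 ≤ (1 / 128) - v := by linarith
  have e : 0 + (64949801 / 5000000000) * v + (-134343 / 100000) * v ^ 2 + (4677 / 40000) * v ^ 3 =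
      0 * ((v - 0) ^ 0 * ((1 / 128) - v) ^ 3) +
      (2078393632 / 9765625) * ((v - 0) ^ 1 * ((1 / 128) - v) ^ 2) +
      (2477499764 / 9765625) * ((v - 0) ^ 2 * ((1 / 128) - v) ^ 1) +
      (25615870573 / 625000000) * ((v - 0) ^ 3 * ((1 / 128) - v) ^ 0) := by ring
  rw [e]; positivity

private theorem C2Log_J2 (v : ℝ) (h1 : (1 / 128) ≤ v) (h2 : v ≤ (11 / 1000)) :
    0 ≤ (-461 / 10000) + (51324849801 / 5000000000) * v + (-62239687 / 100000) * v ^ 2 + (327684677 / 40000) * v ^ 3 := by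
  have hx : 0 ≤ v - (1 / 128) := by linarith
  have hy : 0 ≤ (11 / 1000) - v := by linarith
  have e : (-461 / 10000) + (51324849801 / 5000000000) * v + (-62239687 / 100000) * v ^ 2 + (327684677 / 40000) * v ^ 3 =
      (17423870573 / 42448320) * ((v - (1 / 128)) ^ 0 * ((11 / 1000) - v) ^ 3) +
      (22331762192351 / 110542500) * ((v - (1 / 128)) ^ 1 * ((11 / 1000) - v) ^ 2) +
      (822259221732 / 3070625) * ((v - (1 / 128)) ^ 2 * ((11 / 1000) - v) ^ 1) +
      (246615646144 / 3316275) * ((v - (1 / 128)) ^ 3 * ((11 / 1000) - v) ^ 0) := by ring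
  rw [e]; positivity

private theorem C2Log_J3 (v : ℝ) (h1 : (11 / 1000) ≤ v) (h2 : v ≤ (1 / 50)) :
    0 ≤ (-461 / 10000) + (8927612591 / 1250000000) * v + (-26750919 / 100000) * v ^ 2 + (81924677 / 40000) * v ^ 3 := by
  have hx : 0 ≤ v - (11 / 1000) := by linarith
  have hy : 0 ≤ (1 / 50) - v := by linarith
  have e : (-461 / 10000) + (8927612591 / 1250000000) * v + (-26750919 / 100000) * v ^ 2 + (81924677 / 40000) * v ^ 3 =
      (112816897519 / 29160000) * ((v - (11 / 1000)) ^ 0 * ((1 / 50) - v) ^ 3) +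
      (88214854477 / 2430000) * ((v - (11 / 1000)) ^ 1 * ((1 / 50) - v) ^ 2) +
      (23561681269 / 607500) * ((v - (11 / 1000)) ^ 2 * ((1 / 50) - v) ^ 1) +
      (765382607 / 91125) * ((v - (11 / 1000)) ^ 3 * ((1 / 50) - v) ^ 0) := by ring
  rw [e]; positivity

private theorem C2Log_J4 (v : ℝ) (h1 : (1 / 50) ≤ v) (h2 : v ≤ (3 / 100)) :
    0 ≤ (-461 / 10000) + (899930649 / 200000000) * v + (-11224583 / 100000) * v ^ 2 + (20484677 / 40000) * v ^ 3 := by
  have hx : 0 ≤ v - (1 / 50) := by linarith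
  have hy : 0 ≤ (3 / 100) - v := by linarith
  have e : (-461 / 10000) + (899930649 / 200000000) * v + (-11224583 / 100000) * v ^ 2 + (20484677 / 40000) * v ^ 3 =
      (30916683 / 10000) * ((v - (1 / 50)) ^ 0 * ((3 / 100) - v) ^ 3) +
      (310372169 / 20000) * ((v - (1 / 50)) ^ 1 * ((3 / 100) - v) ^ 2) +
      (272206611 / 20000) * ((v - (1 / 50)) ^ 2 * ((3 / 100) - v) ^ 1) +
      (67820293 / 40000) * ((v - (1 / 50)) ^ 3 * ((3 / 100) - v) ^ 0) := by ring
  rw [e]; positivity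

private theorem C2Log_T5 (v : ℝ) (h1 : (3 / 100) ≤ v) (h2 : v ≤ (3 / 50)) :
    0 ≤ (-583 / 5000) + (1369930649 / 200000000) * v + (-11224583 / 100000) * v ^ 2 + (20484677 / 40000) * v ^ 3 := by
  have hx : 0 ≤ v - (3 / 100) := by linarith
  have hy : 0 ≤ (3 / 50) - v := by linarith
  have e : (-583 / 5000) + (1369930649 / 200000000) * v + (-11224583 / 100000) * v ^ 2 + (20484677 / 40000) * v ^ 3 =
      (67820293 / 1080000) * ((v - (3 / 100)) ^ 0 * ((3 / 50) - v) ^ 3) +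
      (13337359 / 7200) * ((v - (3 / 100)) ^ 1 * ((3 / 50) - v) ^ 2) +
      (26225107 / 20000) * ((v - (3 / 100)) ^ 2 * ((3 / 50) - v) ^ 1) +
      (72917 / 2160) * ((v - (3 / 100)) ^ 3 * ((3 / 50) - v) ^ 0) := by ring
  rw [e]; positivity

private theorem C2Log_T4 (v : ℝ) (h1 : (3 / 50) ≤ v) (h2 : v ≤ (3 / 25)) :
    0 ≤ (-583 / 5000) + (2929787173 / 625000000) * v + (-4570439 / 100000) * v ^ 2 + (5124677 / 40000) * v ^ 3 := by
  have hx : 0 ≤ v - (3 / 50) := by linarith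
  have hy : 0 ≤ (3 / 25) - v := by linarith
  have e : (-583 / 5000) + (2929787173 / 625000000) * v + (-4570439 / 100000) * v ^ 2 + (5124677 / 40000) * v ^ 3 =
      (3474627551 / 27000000) * ((v - (3 / 50)) ^ 0 * ((3 / 25) - v) ^ 3) +
      (823602703 / 1500000) * ((v - (3 / 50)) ^ 1 * ((3 / 25) - v) ^ 2) +
      (9412823 / 28125) * ((v - (3 / 50)) ^ 2 * ((3 / 25) - v) ^ 1) +
      (17894468 / 421875) * ((v - (3 / 50)) ^ 3 * ((3 / 25) - v) ^ 0) := by ring
  rw [e]; positivity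

private theorem C2Log_T3 (v : ℝ) (h1 : (3 / 25) ≤ v) (h2 : v ≤ (11 / 50)) :
    0 ≤ (-583 / 5000) + (15030543841 / 5000000000) * v + (-1797879 / 100000) * v ^ 2 + (1284677 / 40000) * v ^ 3 := by
  have hx : 0 ≤ v - (3 / 25) := by linarith
  have hy : 0 ≤ (11 / 50) - v := by linarith
  have e : (-583 / 5000) + (15030543841 / 5000000000) * v + (-1797879 / 100000) * v ^ 2 + (1284677 / 40000) * v ^ 3 =
      (5092065323 / 125000000) * ((v - (3 / 25)) ^ 0 * ((11 / 50) - v) ^ 3) +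
      (32518650143 / 250000000) * ((v - (3 / 25)) ^ 1 * ((11 / 50) - v) ^ 2) +
      (2305395731 / 31250000) * ((v - (3 / 25)) ^ 2 * ((11 / 50) - v) ^ 1) +
      (4137877601 / 250000000) * ((v - (3 / 25)) ^ 3 * ((11 / 50) - v) ^ 0) := by ring
  rw [e]; positivity

private theorem C2Log_W (v : ℝ) (h1 : (11 / 50) ≤ v) (h2 : v ≤ (9 / 20)) :
    0 ≤ (-583 / 5000) + (168823 / 200000) * v + (-134343 / 100000) * v ^ 2 + (4677 / 40000) * v ^ 3 := by
  have hx : 0 ≤ v - (11 / 50) := by linarith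
  have hy : 0 ≤ (9 / 20) - v := by linarith
  have e : (-583 / 5000) + (168823 / 200000) * v + (-134343 / 100000) * v ^ 2 + (4677 / 40000) * v ^ 3 =
      (26641527 / 60835000) * ((v - (11 / 50)) ^ 0 * ((9 / 20) - v) ^ 3) +
      (31232431 / 4866800) * ((v - (11 / 50)) ^ 1 * ((9 / 20) - v) ^ 2) +
      (58553689 / 9733600) * ((v - (11 / 50)) ^ 2 * ((9 / 20) - v) ^ 1) +
      (595829 / 3893440) * ((v - (11 / 50)) ^ 3 * ((9 / 20) - v) ^ 0) := by ring
  rw [e]; positivity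

private theorem C2Log_A (v : ℝ) (h1 : (9 / 20) ≤ v) (h2 : v ≤ (7 / 5)) :
    0 ≤ (260369 / 3000000) + (-13541 / 60000) * v + (35231 / 120000) * v ^ 2 + (-13 / 90) * v ^ 3 + (1 / 72) * v ^ 4 := by
  have hx : 0 ≤ v - (9 / 20) := by linarith
  have hy : 0 ≤ (7 / 5) - v := by linarith
  have e : (260369 / 3000000) + (-13541 / 60000) * v + (35231 / 120000) * v ^ 2 + (-13 / 90) * v ^ 3 + (1 / 72) * v ^ 4 =
      (616157 / 15638520) * ((v - (9 / 20)) ^ 0 * ((7 / 5) - v) ^ 4) +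
      (691477 / 6516050) * ((v - (9 / 20)) ^ 1 * ((7 / 5) - v) ^ 3) +
      (8206247 / 39096300) * ((v - (9 / 20)) ^ 2 * ((7 / 5) - v) ^ 2) +
      (3908896 / 29322225) * ((v - (9 / 20)) ^ 3 * ((7 / 5) - v) ^ 1) +
      (39272 / 9774075) * ((v - (9 / 20)) ^ 4 * ((7 / 5) - v) ^ 0) := by ring
  rw [e]; positivity

private theorem C2Log_A2 (v : ℝ) (h1 : (7 / 5) ≤ v) (h2 : v ≤ (9 / 2)) :
    0 ≤ (2499843841 / 45000000000) + (-31043 / 180000) * v + (143153 / 1200000) * v ^ 2 + (-5 / 288) * v ^ 3 + (1 / 1152) * v ^ 4 := by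
  have hx : 0 ≤ v - (7 / 5) := by linarith
  have hy : 0 ≤ (9 / 2) - v := by linarith
  have e : (2499843841 / 45000000000) + (-31043 / 180000) * v + (143153 / 1200000) * v ^ 2 + (-5 / 288) * v ^ 3 + (1 / 1152) * v ^ 4 =
      (18094649 / 461760500000) * ((v - (7 / 5)) ^ 0 * ((9 / 2) - v) ^ 4) +
      (142748387 / 57720062500) * ((v - (7 / 5)) ^ 1 * ((9 / 2) - v) ^ 3) +
      (18109028057 / 1385281500000) * ((v - (7 / 5)) ^ 2 * ((9 / 2) - v) ^ 2) +
      (10285747769 / 692640750000) * ((v - (7 / 5)) ^ 3 * ((9 / 2) - v) ^ 1) +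
      (84439753489 / 16623378000000) * ((v - (7 / 5)) ^ 4 * ((9 / 2) - v) ^ 0) := by ring
  rw [e]; positivity

private theorem C2Log_I1 (v : ℝ) (h1 : (9 / 2) ≤ v) (h2 : v ≤ 6) :
    0 ≤ (-583 / 5000) + (715252492681 / 180000000000) * v + (-134343 / 100000) * v ^ 2 + (4677 / 40000) * v ^ 3 := by
  have hx : 0 ≤ v - (9 / 2) := by linarith
  have hy : 0 ≤ 6 - v := by linarith
  have e : (-583 / 5000) + (715252492681 / 180000000000) * v + (-134343 / 100000) * v ^ 2 + (4677 / 40000) * v ^ 3 =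
      (48601817681 / 135000000000) * ((v - (9 / 2)) ^ 0 * (6 - v) ^ 3) +
      (25488712681 / 40500000000) * ((v - (9 / 2)) ^ 1 * (6 - v) ^ 2) +
      (135823419491 / 405000000000) * ((v - (9 / 2)) ^ 2 * (6 - v) ^ 1) +
      (18524092681 / 101250000000) * ((v - (9 / 2)) ^ 3 * (6 - v) ^ 0) := by ring
  rw [e]; positivity

private theorem C2Log_I2 (v : ℝ) (h1 : 6 ≤ v) :
    0 ≤ (-583 / 5000) + (715252492681 / 180000000000) * v + (-134343 / 100000) * v ^ 2 + (4677 / 40000) * v ^ 3 := by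
  have hx : 0 ≤ v - 6 := by linarith
  have e : (-583 / 5000) + (715252492681 / 180000000000) * v + (-134343 / 100000) * v ^ 2 + (4677 / 40000) * v ^ 3 =
      (18524092681 / 30000000000) * (v - 6) ^ 0 +
      (86465692681 / 180000000000) * (v - 6) ^ 1 +
      (38061 / 50000) * (v - 6) ^ 2 +
      (4677 / 40000) * (v - 6) ^ 3 := by ring
  rw [e]; positivity

/-- the polynomial part -/
private theorem C2Log_tang (k : ℕ) (v : ℝ) (hv : 0 < v) :
    (k : ℝ) * 0.69314 - 2 ^ k * v ≤ -(1 + Real.log v) := by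
  have h1 := Real.log_le_sub_one_of_pos (show 0 < (2 : ℝ) ^ k * v by positivity)
  rw [Real.log_mul (by positivity) hv.ne', Real.log_pow] at h1
  have h2 : (k : ℝ) * 0.69314 ≤ k * Real.log 2 :=
    mul_le_mul_of_nonneg_left C2Log_l1 (Nat.cast_nonneg k)
  linarith

private theorem C2Log_sq {x y : ℝ} (hx : 0 ≤ x) (h : x ≤ -y) {v : ℝ} (hv : 0 < v) :
    v * x ^ 2 ≤ v * y ^ 2 := by
  refine mul_le_mul_of_nonneg_left ?_ hv.le
  have h1 : x ^ 2 ≤ (-y) ^ 2 := pow_le_pow_left₀ hx h 2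
  rwa [neg_sq] at h1

private theorem C2Log_q1 (v : ℝ) (hv : 0 < v) (h3 : v ≤ 3 / 100) :
    -(max (0.0461 - 5.9 * v) 0 + max (0.0705 - 2.35 * v) 0) ≤
      -0.1166 + 0.844115 * v - 1.34343 * v ^ 2 + 0.116925 * v ^ 3 +
        1 / 2 * (v * (1 + Real.log v) ^ 2) := by
  have l1 := C2Log_l1
  have m1 : 0 ≤ max (0.0461 - 5.9 * v) 0 := le_max_right _ _
  have m3 : 0.0461 - 5.9 * v ≤ max (0.0461 - 5.9 * v) 0 := le_max_left _ _
  have m4 : 0.0705 - 2.35 * v ≤ max (0.0705 - 2.35 * v) 0 := le_max_left _ _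
  set a1 := max (0.0461 - 5.9 * v) 0
  set a2 := max (0.0705 - 2.35 * v) 0
  rcases le_total v (1 / 128) with h0 | h0
  · have h1 : (7 : ℝ) * 0.69314 - 1 ≤ -(1 + Real.log v) := by
      have h2 : Real.log v ≤ Real.log (1 / 128) := Real.log_le_log hv h0
      have h3 : Real.log (1 / 128) = -(7 * Real.log 2) := by
        rw [one_div, Real.log_inv, show (128 : ℝ) = 2 ^ 7 by norm_num, Real.log_pow]
        norm_num
      linarith
    have h2 := C2Log_sq (by norm_num) h1 hv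
    have h3 := C2Log_J1 v hv.le h0
    linarith [h2, h3, m3, m4]
  rcases le_total v (11 / 1000) with h1 | h1
  · have h2 := C2Log_sq (x := (7 : ℕ) * 0.69314 - 2 ^ 7 * v) (by push_cast; linarith)
      (C2Log_tang 7 v hv) hv
    have h4 := C2Log_J2 v h0 h1
    push_cast at h2
    linarith [h2, h4, m1, m4]
  rcases le_total v (1 / 50) with h2 | h2
  · have h3 := C2Log_sq (x := (6 : ℕ) * 0.69314 - 2 ^ 6 * v) (by push_cast; linarith)
      (C2Log_tang 6 v hv) hv
    have h4 := C2Log_J3 v h1 h2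
    push_cast at h3
    linarith [h3, h4, m1, m4]
  · have h4 := C2Log_sq (x := (5 : ℕ) * 0.69314 - 2 ^ 5 * v) (by push_cast; linarith)
      (C2Log_tang 5 v hv) hv
    have h5 := C2Log_J4 v h2 h3
    push_cast at h4
    linarith [h4, h5, m1, m4]

private theorem C2Log_q2 (v : ℝ) (hv : 0 < v) (h3 : 3 / 100 ≤ v) (h7 : v ≤ 9 / 20) :
    0 ≤ -0.1166 + 0.844115 * v - 1.34343 * v ^ 2 + 0.116925 * v ^ 3 +
        1 / 2 * (v * (1 + Real.log v) ^ 2) := by
  rcases le_total v (3 / 50) with h4 | h4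
  · have h5 := C2Log_sq (x := (5 : ℕ) * 0.69314 - 2 ^ 5 * v) (by push_cast; linarith)
      (C2Log_tang 5 v hv) hv
    have h6 := C2Log_T5 v h3 h4
    push_cast at h5
    linarith [h5, h6]
  rcases le_total v (3 / 25) with h5 | h5
  · have h6 := C2Log_sq (x := (4 : ℕ) * 0.69314 - 2 ^ 4 * v) (by push_cast; linarith)
      (C2Log_tang 4 v hv) hv
    have h7 := C2Log_T4 v h4 h5
    push_cast at h6
    linarith [h6, h7]
  rcases le_total v (11 / 50) with h6 | h6
  · have h7 := C2Log_sq (x := (3 : ℕ) * 0.69314 - 2 ^ 3 * v) (by push_cast; linarith)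
      (C2Log_tang 3 v hv) hv
    have h8 := C2Log_T3 v h5 h6
    push_cast at h7
    linarith [h7, h8]
  · have h8 := C2Log_W v h6 h7
    have h9 : 0 ≤ v * (1 + Real.log v) ^ 2 := by positivity
    linarith

private theorem C2Log_q3 (v : ℝ) (hv : 0 < v) (h7 : 9 / 20 ≤ v) (h8 : v ≤ 7 / 5) :
    0 ≤ -0.1166 + 0.844115 * v - 1.34343 * v ^ 2 + 0.116925 * v ^ 3 +
        1 / 2 * (v * (1 + Real.log v) ^ 2) := by
  have h9 := c2_log_lower v hv
  have h10 : v * (-Real.log v) ≤ v * (1 / (3 * v) + 1 / 2 - v + v ^ 2 / 6) :=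
    mul_le_mul_of_nonneg_left h9 hv.le
  have h11 : v * (1 / (3 * v) + 1 / 2 - v + v ^ 2 / 6) =
      1 / 3 + v / 2 - v ^ 2 + 1 / 6 * v ^ 3 := by
    field_simp
    try ring
  rw [h11] at h10
  obtain ⟨g, hg⟩ : ∃ g : ℝ, g = -1 / 3 + v / 2 + v ^ 2 - 1 / 6 * v ^ 3 := ⟨_, rfl⟩
  have h12 : 0 ≤ g := by
    rw [hg]
    nlinarith [mul_nonneg (sub_nonneg.mpr h7) (sub_nonneg.mpr h8),
      mul_nonneg hv.le (mul_nonneg (sub_nonneg.mpr h7) (sub_nonneg.mpr h8))]
  have h13 : g ≤ v * (1 + Real.log v) := by rw [hg]; linarith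
  have h14 : g ^ 2 ≤ (v * (1 + Real.log v)) ^ 2 := pow_le_pow_left₀ h12 h13 2
  have h15 := C2Log_A v h7 h8
  have h16 := mul_nonneg (sq_nonneg (v - 4 / 5)) h15
  have h17 : 0 ≤ v * (-0.1166 + 0.844115 * v - 1.34343 * v ^ 2 + 0.116925 * v ^ 3 +
      1 / 2 * (v * (1 + Real.log v) ^ 2)) := by
    have e : v * (-0.1166 + 0.844115 * v - 1.34343 * v ^ 2 + 0.116925 * v ^ 3 +
      1 / 2 * (v * (1 + Real.log v) ^ 2)) = v * (-0.1166 + 0.844115 * v - 1.34343 * v ^ 2 +
        0.116925 * v ^ 3) + 1 / 2 * (v * (1 + Real.log v)) ^ 2 := by ring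
    rw [e]
    have e2 : v * (-0.1166 + 0.844115 * v - 1.34343 * v ^ 2 +
        0.116925 * v ^ 3) + 1 / 2 * g ^ 2 = (v - 4 / 5) ^ 2 *
        ((260369 / 3000000) + (-13541 / 60000) * v + (35231 / 120000) * v ^ 2 +
          (-13 / 90) * v ^ 3 + (1 / 72) * v ^ 4) + (143 / 14062500 + 8 / 234375 * v) := by
      rw [hg]; ring
    linarith [h14, h16, e2, hv]
  have h18 := nonneg_of_mul_nonneg_right h17 hv
  exact h18

private theorem C2Log_q4 (v : ℝ) (hv : 0 < v) (h8 : 7 / 5 ≤ v) (h9 : v ≤ 9 / 2) :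
    0 ≤ -0.1166 + 0.844115 * v - 1.34343 * v ^ 2 + 0.116925 * v ^ 3 +
        1 / 2 * (v * (1 + Real.log v) ^ 2) := by
  have l1 := C2Log_l1
  have h10 := c2_log_lower (v / 2) (by positivity)
  rw [Real.log_div hv.ne' two_ne_zero] at h10
  have h11 : v * (-(Real.log v - Real.log 2)) ≤
      v * (1 / (3 * (v / 2)) + 1 / 2 - v / 2 + (v / 2) ^ 2 / 6) :=
    mul_le_mul_of_nonneg_left h10 hv.le
  have h12 : v * (1 / (3 * (v / 2)) + 1 / 2 - v / 2 + (v / 2) ^ 2 / 6) =
      2 / 3 + v / 2 - v ^ 2 / 2 + 1 / 24 * v ^ 3 := by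
    field_simp
    try ring
  rw [h12] at h11
  have h13 : v * 0.69314 ≤ v * Real.log 2 := mul_le_mul_of_nonneg_left l1 hv.le
  obtain ⟨g, hg⟩ : ∃ g : ℝ, g = -2 / 3 + 1.19314 * v + v ^ 2 / 2 - 1 / 24 * v ^ 3 := ⟨_, rfl⟩
  have h14 : 0 ≤ g := by
    rw [hg]
    nlinarith [mul_nonneg (sub_nonneg.mpr h8) (sub_nonneg.mpr h9),
      mul_nonneg hv.le (mul_nonneg (sub_nonneg.mpr h8) (sub_nonneg.mpr h9))]
  have h15 : g ≤ v * (1 + Real.log v) := by rw [hg]; linarith
  have h16 : g ^ 2 ≤ (v * (1 + Real.log v)) ^ 2 := pow_le_pow_left₀ h14 h15 2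
  have h17 := C2Log_A2 v h8 h9
  have h18 := mul_nonneg (sq_nonneg (v - 2)) h17
  have h19 : 0 ≤ v * (-0.1166 + 0.844115 * v - 1.34343 * v ^ 2 + 0.116925 * v ^ 3 +
      1 / 2 * (v * (1 + Real.log v) ^ 2)) := by
    have e : v * (-0.1166 + 0.844115 * v - 1.34343 * v ^ 2 + 0.116925 * v ^ 3 +
      1 / 2 * (v * (1 + Real.log v) ^ 2)) = v * (-0.1166 + 0.844115 * v - 1.34343 * v ^ 2 +
        0.116925 * v ^ 3) + 1 / 2 * (v * (1 + Real.log v)) ^ 2 := by ring
    rw [e]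
    have e2 : v * (-0.1166 + 0.844115 * v - 1.34343 * v ^ 2 +
        0.116925 * v ^ 3) + 1 / 2 * g ^ 2 = (v - 2) ^ 2 *
        ((2499843841 / 45000000000) + (-31043 / 180000) * v + (143153 / 1200000) * v ^ 2 +
          (-5 / 288) * v ^ 3 + (1 / 1152) * v ^ 4) +
          (17351 / 1250000000 + 32649 / 1250000000 * v) := by
      rw [hg]; ring
    linarith [h16, h18, e2, hv]
  have h20 := nonneg_of_mul_nonneg_right h19 hv
  exact h20

private theorem C2Log_q5 (v : ℝ) (hv : 0 < v) (h9 : 9 / 2 ≤ v) :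
    0 ≤ -0.1166 + 0.844115 * v - 1.34343 * v ^ 2 + 0.116925 * v ^ 3 +
        1 / 2 * (v * (1 + Real.log v) ^ 2) := by
  have l1 := C2Log_l1
  have h10 : 1 + (13 / 6) * 0.69314 ≤ 1 + Real.log v := by
    have h11 : Real.log (2 ^ 13) ≤ Real.log (v ^ 6) := by
      refine Real.log_le_log (by positivity) ?_
      have h12 : ((9 : ℝ) / 2) ^ 6 ≤ v ^ 6 := pow_le_pow_left₀ (by norm_num) h9 6
      refine le_trans ?_ h12
      norm_num
    rw [Real.log_pow, Real.log_pow] at h11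
    push_cast at h11
    linarith
  have h11 : v * (1 + (13 / 6) * 0.69314) ^ 2 ≤ v * (1 + Real.log v) ^ 2 :=
    mul_le_mul_of_nonneg_left (pow_le_pow_left₀ (by norm_num) h10 2) hv.le
  rcases le_total v 6 with h12 | h12
  · have h13 := C2Log_I1 v h9 h12
    linarith [h11, h13]
  · have h13 := C2Log_I2 v h12
    linarith [h11, h13]

/-- the majorant of `h v = v - 1 - log v - (1/2) log^2 v` -/
theorem c2_q (v : ℝ) (hv : 0 < v) :
    -(max (0.0461 - 5.9 * v) 0 + max (0.0705 - 2.35 * v) 0) ≤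
      -0.1166 + 0.844115 * v - 1.34343 * v ^ 2 + 0.116925 * v ^ 3 +
        1 / 2 * (v * (1 + Real.log v) ^ 2) := by
  have m1 : 0 ≤ max (0.0461 - 5.9 * v) 0 := le_max_right _ _
  have m2 : 0 ≤ max (0.0705 - 2.35 * v) 0 := le_max_right _ _
  rcases le_total v (3 / 100) with h | h
  · exact C2Log_q1 v hv h
  refine le_trans (by linarith) (?_ : (0 : ℝ) ≤ _)
  rcases le_total v (9 / 20) with h1 | h1
  · exact C2Log_q2 v hv h h1
  rcases le_total v (7 / 5) with h2 | h2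
  · exact C2Log_q3 v hv h1 h2
  rcases le_total v (9 / 2) with h3 | h3
  · exact C2Log_q4 v hv h2 h3
  · exact C2Log_q5 v hv h3

end Vale.Agent.P254U
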