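import Mathlib

/-!
P254U/C2/Poly: the scalar inequalities.  `BB M r` is the upper bound of the functional of the
inequality (C) in terms of `M = 2 E X` and `r = 3 E X^2 / M^2`.
-/

namespace Vale.Agent.P254U

/-- the upper bound -/
noncomputable def BB (M r : ℝ) : ℝ :=
  -0.1166 * M + 0.000685 + 0.116925 * r + 0.00124 * M ^ 2 +
    1 / 2 * (0.2896 * M - 0.41032 + 0.138 * r) ^ 2

private theorem C2Poly_F3 (x : ℝ) (h1 : 0 ≤ x) (h2 : x ≤ 0.41) :
    0 ≤ (3062719 / 312500000) + (18130547 / 625000000) * x ^ 2 + (-2982741 / 12500000) * x ^ 3 +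
      (177060333 / 625000000) * x ^ 4 + (-3720351 / 6250000) * x ^ 5 + (363438497 / 625000000) * x ^ 6 +
      (-4504881 / 12500000) * x ^ 7 + (210607193 / 625000000) * x ^ 8 + (-12489 / 156250) * x ^ 9 +
      (-368997 / 15625000) * x ^ 10 + (-134919 / 3125000) * x ^ 12 := by
  have hy : 0 ≤ (41 / 100) - x := by linarith
  have e : (3062719 / 312500000) + (18130547 / 625000000) * x ^ 2 + (-2982741 / 12500000) * x ^ 3 +
      (177060333 / 625000000) * x ^ 4 + (-3720351 / 6250000) * x ^ 5 + (363438497 / 625000000) * x ^ 6 +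
      (-4504881 / 12500000) * x ^ 7 + (210607193 / 625000000) * x ^ 8 + (-12489 / 156250) * x ^ 9 +
      (-368997 / 15625000) * x ^ 10 + (-134919 / 3125000) * x ^ 12 =
      (9800700800000000000000 / 22563490300366186081) * (x ^ 0 * ((41 / 100) - x) ^ 12) +
      (117608409600000000000000 / 22563490300366186081) * (x ^ 1 * ((41 / 100) - x) ^ 11) +
      (651722644721120000000000 / 22563490300366186081) * (x ^ 2 * ((41 / 100) - x) ^ 10) +
      (2188472215814320000000000 / 22563490300366186081) * (x ^ 3 * ((41 / 100) - x) ^ 9) +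
      (4930776900816694608000000 / 22563490300366186081) * (x ^ 4 * ((41 / 100) - x) ^ 8) +
      (7812416257620492048000000 / 22563490300366186081) * (x ^ 5 * ((41 / 100) - x) ^ 7) +
      (8877071206637183097243200 / 22563490300366186081) * (x ^ 6 * ((41 / 100) - x) ^ 6) +
      (7238167475183123372930400 / 22563490300366186081) * (x ^ 7 * ((41 / 100) - x) ^ 5) +
      (104009909457645018372769412 / 564087257509154652025) * (x ^ 8 * ((41 / 100) - x) ^ 4) +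
      (40401599644444104691449008 / 564087257509154652025) * (x ^ 9 * ((41 / 100) - x) ^ 3) +
      (1217194966032900713905295406 / 70510907188644331503125) * (x ^ 10 * ((41 / 100) - x) ^ 2) +
      (150568781659003376174418812 / 70510907188644331503125) * (x ^ 11 * ((41 / 100) - x) ^ 1) +
      (5122373616620978521113043561 / 70510907188644331503125000) * (x ^ 12 * ((41 / 100) - x) ^ 0) := by ring
  rw [e]; positivity

private theorem C2Poly_F4 (x : ℝ) (h1 : 0 ≤ x) (h2 : x ≤ 0.47) :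
    0 ≤ (3937719 / 312500000) + (25130547 / 625000000) * x ^ 2 + (-2982741 / 12500000) * x ^ 3 +
      (187560333 / 625000000) * x ^ 4 + (-3720351 / 6250000) * x ^ 5 + (370438497 / 625000000) * x ^ 6 +
      (-4504881 / 12500000) * x ^ 7 + (212357193 / 625000000) * x ^ 8 + (-12489 / 156250) * x ^ 9 +
      (-368997 / 15625000) * x ^ 10 + (-134919 / 3125000) * x ^ 12 := by
  have hy : 0 ≤ (47 / 100) - x := by linarith
  have e : (3937719 / 312500000) + (25130547 / 625000000) * x ^ 2 + (-2982741 / 12500000) * x ^ 3 +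
      (187560333 / 625000000) * x ^ 4 + (-3720351 / 6250000) * x ^ 5 + (370438497 / 625000000) * x ^ 6 +
      (-4504881 / 12500000) * x ^ 7 + (212357193 / 625000000) * x ^ 8 + (-12489 / 156250) * x ^ 9 +
      (-368997 / 15625000) * x ^ 10 + (-134919 / 3125000) * x ^ 12 =
      (12600700800000000000000 / 116191483108948578241) * (x ^ 0 * ((47 / 100) - x) ^ 12) +
      (151208409600000000000000 / 116191483108948578241) * (x ^ 1 * ((47 / 100) - x) ^ 11) +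
      (840528393331680000000000 / 116191483108948578241) * (x ^ 2 * ((47 / 100) - x) ^ 10) +
      (2836201411809360000000000 / 116191483108948578241) * (x ^ 3 * ((47 / 100) - x) ^ 9) +
      (6428719447851340368000000 / 116191483108948578241) * (x ^ 4 * ((47 / 100) - x) ^ 8) +
      (10257239920257163632000000 / 116191483108948578241) * (x ^ 5 * ((47 / 100) - x) ^ 7) +
      (11748117448416557712820800 / 116191483108948578241) * (x ^ 6 * ((47 / 100) - x) ^ 6) +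
      (9666376653282343029002400 / 116191483108948578241) * (x ^ 7 * ((47 / 100) - x) ^ 5) +
      (140395249989409109943087492 / 2904787077723714456025) * (x ^ 8 * ((47 / 100) - x) ^ 4) +
      (55297001316295303259019888 / 2904787077723714456025) * (x ^ 9 * ((47 / 100) - x) ^ 3) +
      (1702986660426569033505657294 / 363098384715464307003125) * (x ^ 10 * ((47 / 100) - x) ^ 2) +
      (221237497355606353650102588 / 363098384715464307003125) * (x ^ 11 * ((47 / 100) - x) ^ 1) +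
      (9267840567628721470267096521 / 363098384715464307003125000) * (x ^ 12 * ((47 / 100) - x) ^ 0) := by ring
  rw [e]; positivity

private theorem C2Poly_F5 (x : ℝ) (h1 : 0 ≤ x) (h2 : x ≤ 0.51) :
    0 ≤ (4562719 / 312500000) + (30130547 / 625000000) * x ^ 2 + (-2982741 / 12500000) * x ^ 3 +
      (195060333 / 625000000) * x ^ 4 + (-3720351 / 6250000) * x ^ 5 + (375438497 / 625000000) * x ^ 6 +
      (-4504881 / 12500000) * x ^ 7 + (213607193 / 625000000) * x ^ 8 + (-12489 / 156250) * x ^ 9 +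
      (-368997 / 15625000) * x ^ 10 + (-134919 / 3125000) * x ^ 12 := by
  have hy : 0 ≤ (51 / 100) - x := by linarith
  have e : (4562719 / 312500000) + (30130547 / 625000000) * x ^ 2 + (-2982741 / 12500000) * x ^ 3 +
      (195060333 / 625000000) * x ^ 4 + (-3720351 / 6250000) * x ^ 5 + (375438497 / 625000000) * x ^ 6 +
      (-4504881 / 12500000) * x ^ 7 + (213607193 / 625000000) * x ^ 8 + (-12489 / 156250) * x ^ 9 +
      (-368997 / 15625000) * x ^ 10 + (-134919 / 3125000) * x ^ 12 =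
      (14600700800000000000000 / 309629344375621415601) * (x ^ 0 * ((51 / 100) - x) ^ 12) +
      (58402803200000000000000 / 103209781458540471867) * (x ^ 1 * ((51 / 100) - x) ^ 11) +
      (325395127079840000000000 / 103209781458540471867) * (x ^ 2 * ((51 / 100) - x) ^ 10) +
      (3305892374283920000000000 / 309629344375621415601) * (x ^ 3 * ((51 / 100) - x) ^ 9) +
      (836427095392758992000000 / 34403260486180157289) * (x ^ 4 * ((51 / 100) - x) ^ 8) +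
      (1341923685310955312000000 / 34403260486180157289) * (x ^ 5 * ((51 / 100) - x) ^ 7) +
      (4641133776438885890718400 / 103209781458540471867) * (x ^ 6 * ((51 / 100) - x) ^ 6) +
      (1282955562046173951149600 / 34403260486180157289) * (x ^ 7 * ((51 / 100) - x) ^ 5) +
      (18820479770173586419897508 / 860081512154503932225) * (x ^ 8 * ((51 / 100) - x) ^ 4) +
      (67666960205789298044504048 / 7740733609390535390025) * (x ^ 9 * ((51 / 100) - x) ^ 3) +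
      (711770344930539508500593002 / 322530567057938974584375) * (x ^ 10 * ((51 / 100) - x) ^ 2) +
      (97666074971234932116942004 / 322530567057938974584375) * (x ^ 11 * ((51 / 100) - x) ^ 1) +
      (14796762666058640159085034681 / 967591701173816923753125000) * (x ^ 12 * ((51 / 100) - x) ^ 0) := by ring
  rw [e]; positivity

private theorem C2Poly_F6 (x : ℝ) (h1 : 0 ≤ x) (h2 : x ≤ 1) :
    0 ≤ (500219 / 312500000) + (24880547 / 625000000) * x ^ 2 + (-1892741 / 12500000) * x ^ 3 +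
      (173560333 / 625000000) * x ^ 4 + (-2630351 / 6250000) * x ^ 5 + (315688497 / 625000000) * x ^ 6 +
      (-3414881 / 12500000) * x ^ 7 + (178232193 / 625000000) * x ^ 8 + (-12489 / 156250) * x ^ 9 +
      (-368997 / 15625000) * x ^ 10 + (-134919 / 3125000) * x ^ 12 := by
  have hy : 0 ≤ 1 - x := by linarith
  have e : (500219 / 312500000) + (24880547 / 625000000) * x ^ 2 + (-1892741 / 12500000) * x ^ 3 +
      (173560333 / 625000000) * x ^ 4 + (-2630351 / 6250000) * x ^ 5 + (315688497 / 625000000) * x ^ 6 +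
      (-3414881 / 12500000) * x ^ 7 + (178232193 / 625000000) * x ^ 8 + (-12489 / 156250) * x ^ 9 +
      (-368997 / 15625000) * x ^ 10 + (-134919 / 3125000) * x ^ 12 =
      (500219 / 312500000) * (x ^ 0 * (1 - x) ^ 12) +
      (1500657 / 78125000) * (x ^ 1 * (1 - x) ^ 11) +
      (18181891 / 125000000) * (x ^ 2 * (1 - x) ^ 10) +
      (18713239 / 31250000) * (x ^ 3 * (1 - x) ^ 9) +
      (234167077 / 156250000) * (x ^ 4 * (1 - x) ^ 8) +
      (14965263 / 6250000) * (x ^ 5 * (1 - x) ^ 7) +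
      (1533939503 / 625000000) * (x ^ 6 * (1 - x) ^ 6) +
      (26425123 / 15625000) * (x ^ 7 * (1 - x) ^ 5) +
      (199674397 / 156250000) * (x ^ 8 * (1 - x) ^ 4) +
      (12983777 / 7812500) * (x ^ 9 * (1 - x) ^ 3) +
      (52366209 / 31250000) * (x ^ 10 * (1 - x) ^ 2) +
      (8285406 / 9765625) * (x ^ 11 * (1 - x) ^ 1) +
      (4577883 / 39062500) * (x ^ 12 * (1 - x) ^ 0) := by ring
  rw [e]; positivity

theorem bb_mono {M r s : ℝ} (hM : 1 ≤ M) (h0 : 0 ≤ r) (h : r ≤ s) : BB M r ≤ BB M s := by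
  have e : BB M s - BB M r = (s - r) * (0.116925 + 0.138 / 2 * (2 * (0.2896 * M - 0.41032) +
      0.138 * (r + s))) := by
    unfold BB; ring
  have h1 : 0 ≤ (s - r) * (0.116925 + 0.138 / 2 * (2 * (0.2896 * M - 0.41032) +
      0.138 * (r + s))) := by
    refine mul_nonneg (sub_nonneg.mpr h) ?_
    nlinarith
  linarith

/-- `n = three` -/
theorem bb_three {θ r : ℝ} (h0 : 0 ≤ θ) (h1 : θ ≤ 1) (hr : 0 ≤ r)
    (h : r * (1 + θ ^ 2) ^ 2 ≤ 1 + 3 * θ ^ 2 + 2 * θ ^ 3) (h5 : r ≤ 6 / 5) :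
    BB (1 + θ ^ 2) r ≤ 0.0122 := by
  have hN : 0 < (1 + θ ^ 2) ^ 2 := by positivity
  rcases le_total θ 0.41 with h2 | h2
  · set ρ := (1 + 3 * θ ^ 2 + 2 * θ ^ 3) / (1 + θ ^ 2) ^ 2 with hρ
    have h3 : r ≤ ρ := by rw [hρ, le_div_iff₀ hN]; exact h
    refine (bb_mono (by nlinarith [sq_nonneg θ]) hr h3).trans ?_
    have h4 := C2Poly_F3 θ h0 h2
    have h6 : ρ * (1 + θ ^ 2) ^ 2 = 1 + 3 * θ ^ 2 + 2 * θ ^ 3 := by
      rw [hρ, div_mul_cancel₀ _ hN.ne']
    have h7 : 0 ≤ (0.0122 - BB (1 + θ ^ 2) ρ) * ((1 + θ ^ 2) ^ 2) ^ 2 := by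
      have e : (0.0122 - BB (1 + θ ^ 2) ρ) * ((1 + θ ^ 2) ^ 2) ^ 2 =
          (0.0122 - (-0.1166 * (1 + θ ^ 2) + 0.000685 + 0.00124 * (1 + θ ^ 2) ^ 2)) *
            ((1 + θ ^ 2) ^ 2) ^ 2 - 0.116925 * (ρ * (1 + θ ^ 2) ^ 2) * (1 + θ ^ 2) ^ 2 -
            1 / 2 * ((0.2896 * (1 + θ ^ 2) - 0.41032) * (1 + θ ^ 2) ^ 2 +
              0.138 * (ρ * (1 + θ ^ 2) ^ 2)) ^ 2 := by
        unfold BB; ring
      rw [e, h6]
      refine h4.trans_eq ?_
      ring
    have h8 := nonneg_of_mul_nonneg_left h7 (by positivity)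
    linarith
  · refine (bb_mono (by nlinarith [sq_nonneg θ]) hr h5).trans ?_
    have h3 : (1 : ℝ) + (0.41) ^ 2 ≤ 1 + θ ^ 2 := by nlinarith
    have h4 : 1 + θ ^ 2 ≤ 2 := by nlinarith
    obtain ⟨M, hM⟩ : ∃ M : ℝ, M = 1 + θ ^ 2 := ⟨_, rfl⟩
    rw [← hM] at h3 h4 ⊢
    unfold BB
    norm_num at h3
    nlinarith [mul_nonneg (sub_nonneg.mpr h3) (sub_nonneg.mpr h4)]

/-- `n = four` -/
theorem bb_four {θ r : ℝ} (h0 : 0 ≤ θ) (h1 : θ ≤ 1) (hr : 0 ≤ r)
    (h : r * (1 + θ ^ 2) ^ 2 ≤ 1 + 3 * θ ^ 2 + 2 * θ ^ 3) (h5 : r ≤ 5 / 4) :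
    BB (1 + θ ^ 2) r ≤ 0.015 := by
  have hN : 0 < (1 + θ ^ 2) ^ 2 := by positivity
  rcases le_total θ 0.47 with h2 | h2
  · set ρ := (1 + 3 * θ ^ 2 + 2 * θ ^ 3) / (1 + θ ^ 2) ^ 2 with hρ
    have h3 : r ≤ ρ := by rw [hρ, le_div_iff₀ hN]; exact h
    refine (bb_mono (by nlinarith [sq_nonneg θ]) hr h3).trans ?_
    have h4 := C2Poly_F4 θ h0 h2
    have h6 : ρ * (1 + θ ^ 2) ^ 2 = 1 + 3 * θ ^ 2 + 2 * θ ^ 3 := by
      rw [hρ, div_mul_cancel₀ _ hN.ne']
    have h7 : 0 ≤ (0.015 - BB (1 + θ ^ 2) ρ) * ((1 + θ ^ 2) ^ 2) ^ 2 := by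
      have e : (0.015 - BB (1 + θ ^ 2) ρ) * ((1 + θ ^ 2) ^ 2) ^ 2 =
          (0.015 - (-0.1166 * (1 + θ ^ 2) + 0.000685 + 0.00124 * (1 + θ ^ 2) ^ 2)) *
            ((1 + θ ^ 2) ^ 2) ^ 2 - 0.116925 * (ρ * (1 + θ ^ 2) ^ 2) * (1 + θ ^ 2) ^ 2 -
            1 / 2 * ((0.2896 * (1 + θ ^ 2) - 0.41032) * (1 + θ ^ 2) ^ 2 +
              0.138 * (ρ * (1 + θ ^ 2) ^ 2)) ^ 2 := by
        unfold BB; ring
      rw [e, h6]
      refine h4.trans_eq ?_
      ring
    have h8 := nonneg_of_mul_nonneg_left h7 (by positivity)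
    linarith
  · refine (bb_mono (by nlinarith [sq_nonneg θ]) hr h5).trans ?_
    have h3 : (1 : ℝ) + (0.47) ^ 2 ≤ 1 + θ ^ 2 := by nlinarith
    have h4 : 1 + θ ^ 2 ≤ 2 := by nlinarith
    obtain ⟨M, hM⟩ : ∃ M : ℝ, M = 1 + θ ^ 2 := ⟨_, rfl⟩
    rw [← hM] at h3 h4 ⊢
    unfold BB
    norm_num at h3
    nlinarith [mul_nonneg (sub_nonneg.mpr h3) (sub_nonneg.mpr h4)]

/-- `n = five` -/
theorem bb_five {θ r : ℝ} (h0 : 0 ≤ θ) (h1 : θ ≤ 1) (hr : 0 ≤ r)
    (h : r * (1 + θ ^ 2) ^ 2 ≤ 1 + 3 * θ ^ 2 + 2 * θ ^ 3) (h5 : r ≤ 9 / 7) :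
    BB (1 + θ ^ 2) r ≤ 0.017 := by
  have hN : 0 < (1 + θ ^ 2) ^ 2 := by positivity
  rcases le_total θ 0.51 with h2 | h2
  · set ρ := (1 + 3 * θ ^ 2 + 2 * θ ^ 3) / (1 + θ ^ 2) ^ 2 with hρ
    have h3 : r ≤ ρ := by rw [hρ, le_div_iff₀ hN]; exact h
    refine (bb_mono (by nlinarith [sq_nonneg θ]) hr h3).trans ?_
    have h4 := C2Poly_F5 θ h0 h2
    have h6 : ρ * (1 + θ ^ 2) ^ 2 = 1 + 3 * θ ^ 2 + 2 * θ ^ 3 := by
      rw [hρ, div_mul_cancel₀ _ hN.ne']
    have h7 : 0 ≤ (0.017 - BB (1 + θ ^ 2) ρ) * ((1 + θ ^ 2) ^ 2) ^ 2 := by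
      have e : (0.017 - BB (1 + θ ^ 2) ρ) * ((1 + θ ^ 2) ^ 2) ^ 2 =
          (0.017 - (-0.1166 * (1 + θ ^ 2) + 0.000685 + 0.00124 * (1 + θ ^ 2) ^ 2)) *
            ((1 + θ ^ 2) ^ 2) ^ 2 - 0.116925 * (ρ * (1 + θ ^ 2) ^ 2) * (1 + θ ^ 2) ^ 2 -
            1 / 2 * ((0.2896 * (1 + θ ^ 2) - 0.41032) * (1 + θ ^ 2) ^ 2 +
              0.138 * (ρ * (1 + θ ^ 2) ^ 2)) ^ 2 := by
        unfold BB; ring
      rw [e, h6]
      refine h4.trans_eq ?_
      ring
    have h8 := nonneg_of_mul_nonneg_left h7 (by positivity)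
    linarith
  · refine (bb_mono (by nlinarith [sq_nonneg θ]) hr h5).trans ?_
    have h3 : (1 : ℝ) + (0.51) ^ 2 ≤ 1 + θ ^ 2 := by nlinarith
    have h4 : 1 + θ ^ 2 ≤ 2 := by nlinarith
    obtain ⟨M, hM⟩ : ∃ M : ℝ, M = 1 + θ ^ 2 := ⟨_, rfl⟩
    rw [← hM] at h3 h4 ⊢
    unfold BB
    norm_num at h3
    nlinarith [mul_nonneg (sub_nonneg.mpr h3) (sub_nonneg.mpr h4)]

/-- `n ≥ 6` -/
theorem bb_six {θ r : ℝ} (h0 : 0 ≤ θ) (h1 : θ ≤ 1) (hr : 0 ≤ r)
    (h : r * (1 + θ ^ 2) ^ 2 ≤ 1 + 3 * θ ^ 2 + 2 * θ ^ 3) :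
    BB (1 + θ ^ 2) r < 0.0436 * r - 0.0395 := by
  have hN : 0 < (1 + θ ^ 2) ^ 2 := by positivity
  set ρ := (1 + 3 * θ ^ 2 + 2 * θ ^ 3) / (1 + θ ^ 2) ^ 2 with hρ
  have h3 : r ≤ ρ := by rw [hρ, le_div_iff₀ hN]; exact h
  have h4 := C2Poly_F6 θ h0 (by linarith)
  have h6 : ρ * (1 + θ ^ 2) ^ 2 = 1 + 3 * θ ^ 2 + 2 * θ ^ 3 := by
    rw [hρ, div_mul_cancel₀ _ hN.ne']
  have h7 : 0 ≤ (0.0436 * ρ - 0.0396 - BB (1 + θ ^ 2) ρ) * ((1 + θ ^ 2) ^ 2) ^ 2 := by
    have e : (0.0436 * ρ - 0.0396 - BB (1 + θ ^ 2) ρ) * ((1 + θ ^ 2) ^ 2) ^ 2 =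
        (-0.0396 - (-0.1166 * (1 + θ ^ 2) + 0.000685 + 0.00124 * (1 + θ ^ 2) ^ 2)) *
          ((1 + θ ^ 2) ^ 2) ^ 2 + (0.0436 - 0.116925) * (ρ * (1 + θ ^ 2) ^ 2) * (1 + θ ^ 2) ^ 2 -
          1 / 2 * ((0.2896 * (1 + θ ^ 2) - 0.41032) * (1 + θ ^ 2) ^ 2 +
            0.138 * (ρ * (1 + θ ^ 2) ^ 2)) ^ 2 := by
      unfold BB; ring
    rw [e, h6]
    refine h4.trans_eq ?_
    ring
  have h8 := nonneg_of_mul_nonneg_left h7 (by positivity)
  have e : (BB (1 + θ ^ 2) ρ - 0.0436 * ρ) - (BB (1 + θ ^ 2) r - 0.0436 * r) =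
      (ρ - r) * (0.116925 - 0.0436 + 0.138 / 2 * (2 * (0.2896 * (1 + θ ^ 2) - 0.41032) +
      0.138 * (r + ρ))) := by
    unfold BB; ring
  have h9 : 0 ≤ (ρ - r) * (0.116925 - 0.0436 + 0.138 / 2 * (2 * (0.2896 * (1 + θ ^ 2) - 0.41032) +
      0.138 * (r + ρ))) := by
    refine mul_nonneg (sub_nonneg.mpr h3) ?_
    nlinarith [sq_nonneg θ]
  linarith

end Vale.Agent.P254U
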