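import Vale.Agent.Lib.P254U.C2.Facts
import Vale.Agent.Lib.P254U.LC1

/-!
P254U/C2/Second: the second moment of a density of the class `Dens` in terms of its mean.
-/

open MeasureTheory Set

namespace Vale.Agent.P254U

variable {f : ℝ → ℝ}

private theorem C2Second_shift (c : ℝ) (g : ℝ → ℝ) :
    ∫ t in Ioi (0 : ℝ), g (c + t) = ∫ s in Ioi c, g s := by
  have h := (measurePreserving_add_left volume c).setIntegral_preimage_emb
    (measurableEmbedding_addLeft c) g (Ioi c)
  have e : (fun x : ℝ => c + x) ⁻¹' Ioi c = Ioi 0 := by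
    ext x
    simp
  rwa [e] at h

private theorem C2Second_shiftI (c : ℝ) (g : ℝ → ℝ) (hg : IntegrableOn g (Ioi c)) :
    IntegrableOn (fun t => g (c + t)) (Ioi (0 : ℝ)) := by
  have h := ((measurePreserving_add_left volume c).integrableOn_comp_preimage
    (measurableEmbedding_addLeft c) (f := g) (s := Ioi c)).2 hg
  have e : (fun x : ℝ => c + x) ⁻¹' Ioi c = Ioi 0 := by
    ext x
    simp
  rwa [e] at h

private theorem C2Second_split {g : ℝ → ℝ} (hg : IntegrableOn g (Ioi 0)) {c : ℝ} (hc : 0 ≤ c) :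
    ∫ t in Ioi (0 : ℝ), g t = (∫ t in Ioc 0 c, g t) + ∫ t in Ioi c, g t := by
  rw [← setIntegral_union Ioc_disjoint_Ioi_same measurableSet_Ioi
    (hg.mono_set Ioc_subset_Ioi_self) (hg.mono_set (Ioi_subset_Ioi hc)), Ioc_union_Ioi_eq_Ioi hc]

private theorem C2Second_quad {s : Set ℝ} (K0 : IntegrableOn f s)
    (K1 : IntegrableOn (fun t => t * f t) s) (K2 : IntegrableOn (fun t => t ^ 2 * f t) s)
    (c : ℝ) : IntegrableOn (fun t => (t - c) ^ 2 * f t) s ∧
      ∫ t in s, (t - c) ^ 2 * f t = (∫ t in s, t ^ 2 * f t) - 2 * c * (∫ t in s, t * f t)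
        + c ^ 2 * ∫ t in s, f t := by
  have e : (fun t => (t - c) ^ 2 * f t) =
      fun t => (t ^ 2 * f t - 2 * c * (t * f t)) + c ^ 2 * f t := by
    funext t
    ring
  have i12 : IntegrableOn (fun t => t ^ 2 * f t - 2 * c * (t * f t)) s :=
    K2.sub (K1.const_mul _)
  have i0 : IntegrableOn (fun t => c ^ 2 * f t) s := K0.const_mul _
  refine ⟨?_, ?_⟩
  · rw [e]
    exact i12.add i0
  · rw [e, integral_add i12 i0, integral_sub K2 (K1.const_mul _), integral_const_mul,
      integral_const_mul]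

/-- Second moment in terms of the mean. Put `c = 1 - θ`, `F t = f (c + t)`, `P = ∫ F`,
`Q = ∫ t F t`, `R = ∫ t^2 F t` (over `t > 0`). `f ≤ 1` gives `P = 1 - ∫_0^c f ≥ θ`,
`Q = m - c + ∫_0^c (c - t) f t ≤ m - c + c^2/2 = θ^2`, and
`∫ t^2 f = 2 c m - c^2 + ∫_0^c (c - t)^2 f + R ≤ 2 c m - c^2 + c^3/3 + R`;
`logconcave_second_moment` gives `P R ≤ 2 Q^2`, so `R ≤ 2 θ^3` if `θ > 0`; if `θ = 0` then
`Q ≤ 0`, hence `F = 0` a.e. and `R = 0`. Here `2 m = 1 + θ^2`. -/
theorem Dens.second (hf : Dens f) {θ : ℝ} (h0 : 0 ≤ θ) (h1 : θ ≤ 1)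
    (hm : 2 * ∫ t in Ioi (0 : ℝ), t * f t = 1 + θ ^ 2) :
    3 * ∫ t in Ioi (0 : ℝ), t ^ 2 * f t ≤ 1 + 3 * θ ^ 2 + 2 * θ ^ 3 := by
  obtain ⟨c, hc⟩ : ∃ c : ℝ, c = 1 - θ := ⟨_, rfl⟩
  have hc0 : 0 ≤ c := by linarith
  have hc1 : c ≤ 1 := by linarith
  have I0 : IntegrableOn f (Ioi 0) := hf.integrableOn_Ioi
  have I1 : IntegrableOn (fun t => t * f t) (Ioi 0) :=
    hf.integrableOn_mul (φ := fun t => t) fun H hH => (continuous_id.integrableOn_Ioc)
  have I2 : IntegrableOn (fun t => t ^ 2 * f t) (Ioi 0) :=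
    hf.integrableOn_mul (φ := fun t => t ^ 2) fun H hH =>
      ((continuous_pow 2).integrableOn_Ioc)
  have J0 := I0.mono_set (Ioi_subset_Ioi hc0)
  have J1 := I1.mono_set (Ioi_subset_Ioi hc0)
  have J2 := I2.mono_set (Ioi_subset_Ioi hc0)
  have K0 : IntegrableOn f (Ioc 0 c) := I0.mono_set Ioc_subset_Ioi_self
  have K1 : IntegrableOn (fun t => t * f t) (Ioc 0 c) := I1.mono_set Ioc_subset_Ioi_self
  have K2 : IntegrableOn (fun t => t ^ 2 * f t) (Ioc 0 c) := I2.mono_set Ioc_subset_Ioi_self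
  have S0 := C2Second_split I0 hc0
  have S1 := C2Second_split I1 hc0
  have S2 := C2Second_split I2 hc0
  rw [hf.mass] at S0
  set m := ∫ t in Ioi (0 : ℝ), t * f t with hmd
  set S := ∫ t in Ioi (0 : ℝ), t ^ 2 * f t with hSd
  set a0 := ∫ t in Ioc 0 c, f t with ha0
  set a1 := ∫ t in Ioc 0 c, t * f t with ha1
  set a2 := ∫ t in Ioc 0 c, t ^ 2 * f t with ha2
  set b0 := ∫ t in Ioi c, f t with hb0
  set b1 := ∫ t in Ioi c, t * f t with hb1
  set b2 := ∫ t in Ioi c, t ^ 2 * f t with hb2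
  -- the three bounds from `f ≤ 1`
  have A0 : a0 ≤ c := OneA1_first hf hc0
  have A1 : c * a0 - a1 ≤ c ^ 2 / 2 := by
    have e1 : c * a0 - a1 = ∫ t in Ioc 0 c, (c - t) * f t := by
      rw [ha0, ha1, ← integral_const_mul, ← integral_sub (K0.const_mul c) K1]
      refine integral_congr_ae (Filter.Eventually.of_forall fun t => ?_)
      simp only
      ring
    have e2 : ∫ t in Ioc 0 c, (c - t) = c ^ 2 / 2 := by
      rw [← intervalIntegral.integral_of_le hc0, intervalIntegral.integral_sub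
        (by simp) (by simp), intervalIntegral.integral_const, integral_id]
      simp only [smul_eq_mul]
      ring
    rw [e1, ← e2]
    refine setIntegral_mono_on ?_ ?_ measurableSet_Ioc fun t ht => ?_
    · refine ((K0.const_mul c).sub K1).congr (Filter.Eventually.of_forall fun t => ?_)
      simp only [Pi.sub_apply]
      ring
    · exact (continuous_const.sub continuous_id).integrableOn_Ioc
    · have h3 : 0 ≤ c - t := by linarith [ht.2]
      have h4 := hf.le_one ht.1.le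
      nlinarith
  have A2 : a2 - 2 * c * a1 + c ^ 2 * a0 ≤ c ^ 3 / 3 := by
    have e1 := C2Second_quad K0 K1 K2 c
    have e2 : ∫ t in Ioc 0 c, (t - c) ^ 2 = c ^ 3 / 3 := by
      rw [← intervalIntegral.integral_of_le hc0]
      have := intervalIntegral.integral_comp_sub_right (a := 0) (b := c) (fun x : ℝ => x ^ 2) c
      rw [this, integral_pow]
      ring
    rw [← e1.2, ← e2]
    refine setIntegral_mono_on e1.1 ?_ measurableSet_Ioc fun t ht => ?_
    · exact ((continuous_id.sub continuous_const).pow 2).integrableOn_Ioc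
    · have h3 : 0 ≤ (t - c) ^ 2 := sq_nonneg _
      have h4 := hf.le_one ht.1.le
      nlinarith
  -- the shifted density
  set F : ℝ → ℝ := fun t => f (max 0 (c + t)) with hF
  have hFe : ∀ t, 0 ≤ t → F t = f (c + t) := fun t ht => by
    simp only [hF]
    rw [max_eq_right (by linarith)]
  have hFm : Measurable F := by
    apply Antitone.measurable
    intro x y hxy
    exact hf.anti (mem_Ici.2 (le_max_left _ _)) (mem_Ici.2 (le_max_left _ _))
      (max_le_max le_rfl (by linarith))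
  have hFn : ∀ t, 0 ≤ t → 0 ≤ F t := fun t _ => hf.nonneg _ (le_max_left _ _)
  have hF4 : ∀ x y t : ℝ, 0 ≤ x → x ≤ y → 0 ≤ t → F x * F (y + t) ≤ F y * F (x + t) := by
    intro x y t hx hxy ht
    rw [hFe x hx, hFe y (hx.trans hxy), hFe (x + t) (by linarith), hFe (y + t) (by linarith)]
    have h := hf.four (c + x) (c + y) t (by linarith) (by linarith) ht
    rwa [add_assoc, add_assoc] at h
  have G0 : IntegrableOn F (Ioi 0) := by
    refine (C2Second_shiftI c f J0).congr_fun (fun t ht => ?_) measurableSet_Ioi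
    exact (hFe t (le_of_lt ht)).symm
  have L1 : IntegrableOn (fun s => (s - c) * f s) (Ioi c) := by
    refine (J1.sub (J0.const_mul c)).congr (Filter.Eventually.of_forall fun t => ?_)
    simp only [Pi.sub_apply]
    ring
  have L2 : IntegrableOn (fun s => (s - c) ^ 2 * f s) (Ioi c) := (C2Second_quad J0 J1 J2 c).1
  have G1 : IntegrableOn (fun t => t * F t) (Ioi 0) := by
    refine (C2Second_shiftI c _ L1).congr_fun (fun t ht => ?_) measurableSet_Ioi
    simp only
    rw [hFe t (le_of_lt ht)]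
    ring
  have G2 : IntegrableOn (fun t => t ^ 2 * F t) (Ioi 0) := by
    refine (C2Second_shiftI c _ L2).congr_fun (fun t ht => ?_) measurableSet_Ioi
    simp only
    rw [hFe t (le_of_lt ht)]
    ring
  have hP : ∫ t in Ioi (0 : ℝ), F t = b0 := by
    rw [hb0, ← C2Second_shift c f]
    exact setIntegral_congr_fun measurableSet_Ioi fun t ht => hFe t (le_of_lt ht)
  have hQ : ∫ t in Ioi (0 : ℝ), t * F t = b1 - c * b0 := by
    have e1 : b1 - c * b0 = ∫ s in Ioi c, (s - c) * f s := by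
      rw [hb0, hb1, ← integral_const_mul, ← integral_sub J1 (J0.const_mul c)]
      refine integral_congr_ae (Filter.Eventually.of_forall fun t => ?_)
      simp only
      ring
    rw [e1, ← C2Second_shift c (fun s => (s - c) * f s)]
    refine setIntegral_congr_fun measurableSet_Ioi fun t ht => ?_
    rw [hFe t (le_of_lt ht)]
    ring
  have hR : ∫ t in Ioi (0 : ℝ), t ^ 2 * F t = b2 - 2 * c * b1 + c ^ 2 * b0 := by
    have e1 : b2 - 2 * c * b1 + c ^ 2 * b0 = ∫ s in Ioi c, (s - c) ^ 2 * f s :=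
      (C2Second_quad J0 J1 J2 c).2.symm
    rw [e1, ← C2Second_shift c (fun s => (s - c) ^ 2 * f s)]
    refine setIntegral_congr_fun measurableSet_Ioi fun t ht => ?_
    rw [hFe t (le_of_lt ht)]
    ring
  have key := logconcave_second_moment hFm hFn hF4 G0 G1 G2
  have hQ0 : 0 ≤ ∫ t in Ioi (0 : ℝ), t * F t :=
    setIntegral_nonneg measurableSet_Ioi fun t ht => mul_nonneg (le_of_lt ht) (hFn t (le_of_lt ht))
  have hR0 : 0 ≤ ∫ t in Ioi (0 : ℝ), t ^ 2 * F t :=
    setIntegral_nonneg measurableSet_Ioi fun t ht => mul_nonneg (sq_nonneg _) (hFn t (le_of_lt ht))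
  have hRH : ∃ H : ℝ, ∫ t in Ioi (0 : ℝ), t ^ 2 * F t ≤ H * ∫ t in Ioi (0 : ℝ), t * F t := by
    obtain ⟨H, hH0, hH⟩ := hf.supp
    refine ⟨H, ?_⟩
    rw [← integral_const_mul]
    refine setIntegral_mono_on G2 (G1.const_mul H) measurableSet_Ioi fun t ht => ?_
    have ht0 : 0 < t := ht
    by_cases htH : t ≤ H
    · have h5 : 0 ≤ t * F t := mul_nonneg ht0.le (hFn t ht0.le)
      nlinarith
    · have h6 : F t = 0 := by
        rw [hFe t ht0.le]
        exact hH _ (by linarith [not_le.1 htH])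
      rw [h6]
      simp
  set Q := ∫ t in Ioi (0 : ℝ), t * F t with hQd
  set R := ∫ t in Ioi (0 : ℝ), t ^ 2 * F t with hRd
  rw [hP] at key
  have hb0θ : θ ≤ b0 := by linarith
  have hQθ : Q ≤ θ ^ 2 := by
    have e1 : b1 = m - a1 := by linarith
    have e2 : b0 = 1 - a0 := by linarith
    have e3 : Q = m - c + (c * a0 - a1) := by rw [hQ, e1, e2]; ring
    have e4 : m - c + c ^ 2 / 2 = θ ^ 2 := by
      rw [hc]
      linarith [hm, sq_nonneg θ]
    linarith
  have hRθ : R ≤ 2 * θ ^ 3 := by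
    rcases h0.eq_or_lt with h | h
    · obtain ⟨H, hH⟩ := hRH
      have hQz : Q = 0 := le_antisymm (by rw [← h] at hQθ; simpa using hQθ) hQ0
      rw [hQz, mul_zero] at hH
      rw [← h]
      simpa using hH
    · have h7 : θ * R ≤ 2 * Q ^ 2 := (mul_le_mul_of_nonneg_right hb0θ hR0).trans key
      have h8 : Q ^ 2 ≤ (θ ^ 2) ^ 2 := pow_le_pow_left₀ hQ0 hQθ 2
      have h9 : θ * R ≤ θ * (2 * θ ^ 3) := by nlinarith
      exact le_of_mul_le_mul_left h9 h
  have e1 : b1 = m - a1 := by linarith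
  have e2 : b0 = 1 - a0 := by linarith
  have hS : S = R + 2 * c * m - c ^ 2 + (a2 - 2 * c * a1 + c ^ 2 * a0) := by
    have e3 : b2 = S - a2 := by linarith
    rw [hR, e1, e2, e3]
    ring
  have hm' : m = (1 + θ ^ 2) / 2 := by linarith
  have e5 : S ≤ 2 * θ ^ 3 + 2 * c * m - c ^ 2 + c ^ 3 / 3 := by linarith
  have e6 : 3 * (2 * θ ^ 3 + 2 * c * m - c ^ 2 + c ^ 3 / 3) = 1 + 3 * θ ^ 2 + 2 * θ ^ 3 := by
    rw [hm', hc]
    ring
  linarith

end Vale.Agent.P254U
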