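import Vale.Agent.Lib.P254U.OneA

/-!
P254U/C2/Tn: lower bounds for the constants `tn n`.
-/

namespace Vale.Agent.P254U

/-- the target constants -/
noncomputable def tn (n : ℕ) : ℝ :=
  1 / (2 * (n : ℝ)) * Real.log (4 ^ n * (n.factorial : ℝ) ^ 2 /
    (((n : ℝ) + 1) ^ (n + 1) * ((n : ℝ) + 2) ^ n)) - X0 * ((n : ℝ) - 1) / n

/-- `tn n = (1/2) log ((n+1)/(2(n+2))) + (1/(2n)) log (8^n n!^2 / (n+1)^(2n+1)) - X0 (n-1)/n` -/
theorem tn_eq (n : ℕ) (hn : 1 ≤ n) : tn n =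
    1 / 2 * Real.log (((n : ℝ) + 1) / (2 * ((n : ℝ) + 2))) +
    1 / (2 * (n : ℝ)) * Real.log (8 ^ n * (n.factorial : ℝ) ^ 2 / ((n : ℝ) + 1) ^ (2 * n + 1)) -
    X0 * ((n : ℝ) - 1) / n := by
  have hn0 : (0 : ℝ) < n := by exact_mod_cast hn
  have h1 : (0 : ℝ) < (n : ℝ) + 1 := by positivity
  have h2 : (0 : ℝ) < (n : ℝ) + 2 := by positivity
  have hf : (0 : ℝ) < (n.factorial : ℝ) := by exact_mod_cast n.factorial_pos
  have key : Real.log (4 ^ n * (n.factorial : ℝ) ^ 2 /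
      (((n : ℝ) + 1) ^ (n + 1) * ((n : ℝ) + 2) ^ n)) =
      n * Real.log (((n : ℝ) + 1) / (2 * ((n : ℝ) + 2))) +
      Real.log (8 ^ n * (n.factorial : ℝ) ^ 2 / ((n : ℝ) + 1) ^ (2 * n + 1)) := by
    rw [← Real.log_pow, ← Real.log_mul (by positivity) (by positivity)]
    congr 1
    rw [div_pow, mul_pow, div_mul_div_comm, div_eq_div_iff (by positivity) (by positivity)]
    have h8 : (8 : ℝ) ^ n = 2 ^ n * 4 ^ n := by
      rw [← mul_pow]
      norm_num
    rw [h8]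
    ring
  unfold tn
  rw [key]
  field_simp

private theorem C2Tn_lt_log {x c : ℝ} (hx : 0 < x) (hc0 : 0 ≤ c) (hc1 : c ≤ 1)
    (h : (1 + c + c ^ 2 / 2 + c ^ 3 / 6) + c ^ 4 * (5 / 96) < x) : c < Real.log x := by
  rw [Real.lt_log_iff_exp_lt hx]
  refine lt_of_le_of_lt ?_ h
  have := Real.exp_bound' hc0 hc1 (n := 4) (by norm_num)
  simp only [Finset.sum_range_succ, Finset.sum_range_zero, Nat.factorial] at this
  norm_num at this
  refine this.trans (le_of_eq ?_)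
  ring

/-- true margin 0.0002: `(1/6) log (9/8) - 0.0073333 = 0.012297` -/
theorem tn_three : 1 / 2 * Real.log ((4 : ℝ) / 10) + 0.0122 < tn 3 := by
  have h := tn_eq 3 (by norm_num)
  have h1 : (0.1172 : ℝ) < Real.log (9 / 8) :=
    C2Tn_lt_log (by norm_num) (by norm_num) (by norm_num) (by norm_num)
  have e1 : (((3 : ℕ) : ℝ) + 1) / (2 * (((3 : ℕ) : ℝ) + 2)) = 4 / 10 := by norm_num
  have e2 : (8 ^ 3 * ((Nat.factorial 3 : ℕ) : ℝ) ^ 2 / (((3 : ℕ) : ℝ) + 1) ^ (2 * 3 + 1)) =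
      9 / 8 := by
    norm_num [Nat.factorial]
  rw [e1, e2] at h
  rw [h]
  unfold X0
  norm_num at h1 ⊢
  linarith

/-- `8^4 24^2 / 5^9 = 1.20796`, `(1/8) log 1.20796 = 0.0236166`, minus `0.00825` is `0.0153666` -/
theorem tn_four : 1 / 2 * Real.log ((5 : ℝ) / 12) + 0.015 < tn 4 := by
  have h := tn_eq 4 (by norm_num)
  have h1 : (0.187 : ℝ) < Real.log (2359296 / 1953125) :=
    C2Tn_lt_log (by norm_num) (by norm_num) (by norm_num) (by norm_num)
  have e1 : (((4 : ℕ) : ℝ) + 1) / (2 * (((4 : ℕ) : ℝ) + 2)) = 5 / 12 := by norm_num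
  have e2 : (8 ^ 4 * ((Nat.factorial 4 : ℕ) : ℝ) ^ 2 / (((4 : ℕ) : ℝ) + 1) ^ (2 * 4 + 1)) =
      2359296 / 1953125 := by
    norm_num [Nat.factorial]
  rw [e1, e2] at h
  rw [h]
  unfold X0
  norm_num at h1 ⊢
  linarith

/-- `8^5 120^2 / 6^11 = 1.30063`, `(1/10) log = 0.0262837`, minus `0.0088` is `0.0174837` -/
theorem tn_five : 1 / 2 * Real.log ((6 : ℝ) / 14) + 0.017 < tn 5 := by
  have h := tn_eq 5 (by norm_num)
  have h1 : (0.26 : ℝ) < Real.log (471859200 / 362797056) :=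
    C2Tn_lt_log (by norm_num) (by norm_num) (by norm_num) (by norm_num)
  have e1 : (((5 : ℕ) : ℝ) + 1) / (2 * (((5 : ℕ) : ℝ) + 2)) = 6 / 14 := by norm_num
  have e2 : (8 ^ 5 * ((Nat.factorial 5 : ℕ) : ℝ) ^ 2 / (((5 : ℕ) : ℝ) + 1) ^ (2 * 5 + 1)) =
      471859200 / 362797056 := by
    norm_num [Nat.factorial]
  rw [e1, e2] at h
  rw [h]
  unfold X0
  norm_num at h1 ⊢
  linarith

private theorem C2Tn_log_one_add_le {x : ℝ} (hx : 0 ≤ x) :
    Real.log (1 + x) ≤ x - x ^ 2 / 2 + x ^ 3 / 3 := by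
  have hmono : MonotoneOn (fun y : ℝ => y - y ^ 2 / 2 + y ^ 3 / 3 - Real.log (1 + y))
      (Set.Ici 0) := by
    have hd : ∀ y : ℝ, 0 ≤ y → HasDerivAt
        (fun y : ℝ => y - y ^ 2 / 2 + y ^ 3 / 3 - Real.log (1 + y))
        (1 - y + y ^ 2 - 1 / (1 + y)) y := by
      intro y hy
      have h1 : HasDerivAt (fun y : ℝ => Real.log (1 + y)) (1 / (1 + y)) y := by
        have := ((hasDerivAt_id y).const_add 1).log (by simp; linarith)
        simpa using this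
      have h2 : HasDerivAt (fun y : ℝ => y - y ^ 2 / 2 + y ^ 3 / 3) (1 - y + y ^ 2) y := by
        have h3 := ((hasDerivAt_id y).sub (((hasDerivAt_id y).pow 2).div_const 2)).add
          (((hasDerivAt_id y).pow 3).div_const 3)
        have h4 : (1 - y + y ^ 2 : ℝ) =
            1 - ((2 : ℕ) : ℝ) * id y ^ (2 - 1) * 1 / 2 + ((3 : ℕ) : ℝ) * id y ^ (3 - 1) * 1 / 3 := by
          simp
        rw [h4]
        exact h3
      exact h2.sub h1
    apply monotoneOn_of_deriv_nonneg (convex_Ici 0)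
    · intro y hy
      exact (hd y hy).continuousAt.continuousWithinAt
    · intro y hy
      rw [interior_Ici] at hy
      exact (hd y (le_of_lt hy)).differentiableAt.differentiableWithinAt
    · intro y hy
      rw [interior_Ici] at hy
      have hy0 : (0 : ℝ) < y := hy
      rw [(hd y hy0.le).deriv]
      have : 1 - y + y ^ 2 - 1 / (1 + y) = y ^ 3 / (1 + y) := by
        field_simp
        ring
      rw [this]
      positivity
  have := hmono (show (0 : ℝ) ∈ Set.Ici (0 : ℝ) from Set.mem_Ici.2 le_rfl) (show x ∈ Set.Ici (0 : ℝ) from hx) hx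
  simp at this
  linarith

private theorem C2Tn_step {n : ℕ} (hn : 6 ≤ n) :
    (2 * (n : ℝ) + 3) * Real.log (1 + 1 / ((n : ℝ) + 1)) ≤ 2.0045 := by
  have hn' : (6 : ℝ) ≤ n := by exact_mod_cast hn
  set m : ℝ := (n : ℝ) + 1 with hm
  have hm7 : (7 : ℝ) ≤ m := by linarith
  have hm0 : (0 : ℝ) < m := by linarith
  have h1 := C2Tn_log_one_add_le (x := 1 / m) (by positivity)
  have h2 : 2 * (n : ℝ) + 3 = 2 * m + 1 := by rw [hm]; ring
  rw [h2]
  have h3 : (2 * m + 1) * Real.log (1 + 1 / m) ≤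
      (2 * m + 1) * (1 / m - (1 / m) ^ 2 / 2 + (1 / m) ^ 3 / 3) :=
    mul_le_mul_of_nonneg_left h1 (by linarith)
  refine h3.trans ?_
  have h4 : (2 * m + 1) * (1 / m - (1 / m) ^ 2 / 2 + (1 / m) ^ 3 / 3) =
      2 + (1 / m) ^ 2 / 6 + (1 / m) ^ 3 / 3 := by
    field_simp
    ring
  rw [h4]
  have h5 : 1 / m ≤ 1 / 7 := one_div_le_one_div_of_le (by norm_num) hm7
  have h6 : (1 / m) ^ 2 ≤ (1 / 7) ^ 2 := pow_le_pow_left₀ (by positivity) h5 2
  have h7 : (1 / m) ^ 3 ≤ (1 / 7) ^ 3 := pow_le_pow_left₀ (by positivity) h5 3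
  norm_num at h6 h7 ⊢
  linarith

private theorem C2Tn_xi (n : ℕ) (hn : 6 ≤ n) :
    0.0748 * (n : ℝ) - 0.1118 ≤
      Real.log (8 ^ n * (n.factorial : ℝ) ^ 2 / ((n : ℝ) + 1) ^ (2 * n + 1)) := by
  induction n, hn using Nat.le_induction with
  | base =>
    have h1 : (0.337 : ℝ) < Real.log (135895449600 / 96889010407) :=
      C2Tn_lt_log (by norm_num) (by norm_num) (by norm_num) (by norm_num)
    have e2 : (8 ^ 6 * ((Nat.factorial 6 : ℕ) : ℝ) ^ 2 / (((6 : ℕ) : ℝ) + 1) ^ (2 * 6 + 1)) =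
        135895449600 / 96889010407 := by
      norm_num [Nat.factorial]
    rw [e2]
    norm_num at h1 ⊢
    linarith
  | succ n hn ih =>
    have h1 : (0 : ℝ) < (n : ℝ) + 1 := by positivity
    have h2 : (0 : ℝ) < (n : ℝ) + 2 := by positivity
    have hf : (0 : ℝ) < (n.factorial : ℝ) := by exact_mod_cast n.factorial_pos
    have hs := C2Tn_step hn
    have h3 : Real.log (1 + 1 / ((n : ℝ) + 1)) = Real.log ((n : ℝ) + 2) - Real.log ((n : ℝ) + 1) := by
      rw [← Real.log_div h2.ne' h1.ne']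
      congr 1
      field_simp
      ring
    rw [h3] at hs
    have e8 : Real.log 8 = 3 * Real.log 2 := by
      rw [show (8 : ℝ) = 2 ^ 3 by norm_num, Real.log_pow]
      norm_num
    have ea : Real.log (8 ^ n * (n.factorial : ℝ) ^ 2 / ((n : ℝ) + 1) ^ (2 * n + 1)) =
        3 * n * Real.log 2 + 2 * Real.log (n.factorial : ℝ) -
          (2 * n + 1) * Real.log ((n : ℝ) + 1) := by
      rw [Real.log_div (by positivity) (by positivity), Real.log_mul (by positivity) (by positivity),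
        Real.log_pow, Real.log_pow, Real.log_pow, e8]
      push_cast
      ring
    have eb : Real.log (8 ^ (n + 1) * ((n + 1).factorial : ℝ) ^ 2 /
        (((n + 1 : ℕ) : ℝ) + 1) ^ (2 * (n + 1) + 1)) =
        3 * (n + 1) * Real.log 2 + 2 * (Real.log ((n : ℝ) + 1) + Real.log (n.factorial : ℝ)) -
          (2 * (n + 1) + 1) * Real.log ((n : ℝ) + 2) := by
      rw [Nat.factorial_succ]
      push_cast
      rw [show (n : ℝ) + 1 + 1 = n + 2 by ring]
      rw [Real.log_div (by positivity) (by positivity), Real.log_mul (by positivity) (by positivity),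
        Real.log_pow, Real.log_pow, Real.log_pow, Real.log_mul (by positivity) (by positivity), e8]
      push_cast
      ring
    rw [eb]
    rw [ea] at ih
    have hl2 := Real.log_two_gt_d9
    push_cast
    norm_num at ih hs hl2 ⊢
    nlinarith [ih, hs, hl2]

/-- Put `ξ n = 8^n n!^2/(n+1)^(2n+1)`. Then `log (ξ (n+1)) - log (ξ n) = 3 log 2 - (2n+3) log (1 + 1/(n+1))`
and `log (1+x) ≤ x - x^2/2 + x^3/3` gives `(2n+3) log (1 + 1/(n+1)) ≤ 2 + 1/(6 (n+1)^2) + 1/(3 (n+1)^3) ≤ 2.0045`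
for `n ≥ 6`, so the difference is `≥ 0.0748`. Moreover `log (ξ 6) = 0.33832`
(`ξ 6 = 8^6 720^2 / 7^13 = 1.402588`). Hence `log (ξ n) ≥ 0.0738 n - 0.1201` for `n ≥ 6`, and
`(1/(2n)) log (ξ n) - 0.011 (n-1)/n ≥ 0.0259 - 0.0654/(n+2) = 0.0654 (n+1)/(n+2) - 0.0395`
because `n/(n+2) ≥ 3/4`. -/
theorem tn_six_le (n : ℕ) (hn : 6 ≤ n) :
    1 / 2 * Real.log (((n : ℝ) + 1) / (2 * ((n : ℝ) + 2))) +
      (0.0654 * (((n : ℝ) + 1) / ((n : ℝ) + 2)) - 0.0395) ≤ tn n := by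
  have hn' : (6 : ℝ) ≤ n := by exact_mod_cast hn
  have hn0 : (0 : ℝ) < n := by linarith
  have h2 : (0 : ℝ) < (n : ℝ) + 2 := by positivity
  rw [tn_eq n (by omega)]
  have hx := C2Tn_xi n hn
  set L := Real.log (8 ^ n * (n.factorial : ℝ) ^ 2 / ((n : ℝ) + 1) ^ (2 * n + 1)) with hL
  have h3 : 0.0654 * (((n : ℝ) + 1) / ((n : ℝ) + 2)) - 0.0395 ≤
      1 / (2 * (n : ℝ)) * L - X0 * ((n : ℝ) - 1) / n := by
    have h4 : 1 / (2 * (n : ℝ)) * (0.0748 * (n : ℝ) - 0.1118) ≤ 1 / (2 * (n : ℝ)) * L :=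
      mul_le_mul_of_nonneg_left hx (by positivity)
    refine le_trans ?_ (sub_le_sub_right h4 _)
    unfold X0
    rw [← sub_nonneg]
    have e : 1 / (2 * (n : ℝ)) * (0.0748 * (n : ℝ) - 0.1118) - 0.011 * ((n : ℝ) - 1) / n -
        (0.0654 * (((n : ℝ) + 1) / ((n : ℝ) + 2)) - 0.0395) =
        (0.0005 * n * (n + 2) + 0.0654 * n - 0.0449 * (n + 2)) / (n * (n + 2)) := by
      field_simp
      ring
    rw [e]
    apply div_nonneg _ (by positivity)
    nlinarith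
  linarith

end Vale.Agent.P254U
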