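import Vale.Agent.Lib.P254U.C2.Log
import Vale.Agent.Lib.P254U.C2.Tn

/-!
P254U/C2/Two: the scalar inequalities for `n = 2` (a majorant of `-log v` with contacts near `0.79`, `1.72`).
-/

open Set

namespace Vale.Agent.P254U

private theorem C2Two_A1 (v : ℝ) (h1 : 0 ≤ v) (h2 : v ≤ (13 / 20)) :
    0 ≤ (259 / 1200) + (-17053 / 20000) * v + (5839 / 5000) * v ^ 2 +
      (-1043 / 1875) * v ^ 3 := by
  have hx : 0 ≤ v - 0 := by linarith
  have hy : 0 ≤ (13 / 20) - v := by linarith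
  have e : (259 / 1200) + (-17053 / 20000) * v + (5839 / 5000) * v ^ 2 +
      (-1043 / 1875) * v ^ 3 =
      (5180 / 6591) * ((v - 0) ^ 0 * ((13 / 20) - v) ^ 3) +
      (37311 / 109850) * ((v - 0) ^ 1 * ((13 / 20) - v) ^ 2) +
      (64901 / 549250) * ((v - 0) ^ 2 * ((13 / 20) - v) ^ 1) +
      (11208 / 1373125) * ((v - 0) ^ 3 * ((13 / 20) - v) ^ 0) := by ring
  rw [e]; positivity

private theorem C2Two_A2_0 (v : ℝ) (h1 : (13 / 20) ≤ v) (h2 : v ≤ (333 / 400)) :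
    0 ≤ (59 / 1200) + (-319 / 2000) * v + (839 / 5000) * v ^ 2 +
      (-211 / 3750) * v ^ 3 := by
  have hx : 0 ≤ v - (13 / 20) := by linarith
  have hy : 0 ≤ (333 / 400) - v := by linarith
  have e : (59 / 1200) + (-319 / 2000) * v + (839 / 5000) * v ^ 2 +
      (-211 / 3750) * v ^ 3 =
      (897536 / 5835255) * ((v - (13 / 20)) ^ 0 * ((333 / 400) - v) ^ 3) +
      (785704 / 9725425) * ((v - (13 / 20)) ^ 1 * ((333 / 400) - v) ^ 2) +
      (894056 / 48627125) * ((v - (13 / 20)) ^ 2 * ((333 / 400) - v) ^ 1) +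
      (51267493 / 1458813750) * ((v - (13 / 20)) ^ 3 * ((333 / 400) - v) ^ 0) := by ring
  rw [e]; positivity

private theorem C2Two_A2_1 (v : ℝ) (h1 : (333 / 400) ≤ v) (h2 : v ≤ (203 / 200)) :
    0 ≤ (59 / 1200) + (-319 / 2000) * v + (839 / 5000) * v ^ 2 +
      (-211 / 3750) * v ^ 3 := by
  have hx : 0 ≤ v - (333 / 400) := by linarith
  have hy : 0 ≤ (203 / 200) - v := by linarith
  have e : (59 / 1200) + (-319 / 2000) * v + (839 / 5000) * v ^ 2 +
      (-211 / 3750) * v ^ 3 =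
      (51267493 / 1458813750) * ((v - (333 / 400)) ^ 0 * ((203 / 200) - v) ^ 3) +
      (46797213 / 243135625) * ((v - (333 / 400)) ^ 1 * ((203 / 200) - v) ^ 2) +
      (104296466 / 243135625) * ((v - (333 / 400)) ^ 2 * ((203 / 200) - v) ^ 1) +
      (52363404 / 243135625) * ((v - (333 / 400)) ^ 3 * ((203 / 200) - v) ^ 0) := by ring
  rw [e]; positivity

private theorem C2Two_A2_2 (v : ℝ) (h1 : (203 / 200) ≤ v) (h2 : v ≤ (69 / 50)) :
    0 ≤ (59 / 1200) + (-319 / 2000) * v + (839 / 5000) * v ^ 2 +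
      (-211 / 3750) * v ^ 3 := by
  have hx : 0 ≤ v - (203 / 200) := by linarith
  have hy : 0 ≤ (69 / 50) - v := by linarith
  have e : (59 / 1200) + (-319 / 2000) * v + (839 / 5000) * v ^ 2 +
      (-211 / 3750) * v ^ 3 =
      (13090851 / 486271250) * ((v - (203 / 200)) ^ 0 * ((69 / 50) - v) ^ 3) +
      (32834713 / 243135625) * ((v - (203 / 200)) ^ 1 * ((69 / 50) - v) ^ 2) +
      (43680396 / 243135625) * ((v - (203 / 200)) ^ 2 * ((69 / 50) - v) ^ 1) +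
      (11132032 / 729406875) * ((v - (203 / 200)) ^ 3 * ((69 / 50) - v) ^ 0) := by ring
  rw [e]; positivity

private theorem C2Two_A2 (v : ℝ) (h1 : (13 / 20) ≤ v) (h2 : v ≤ (69 / 50)) :
    0 ≤ (59 / 1200) + (-319 / 2000) * v + (839 / 5000) * v ^ 2 +
      (-211 / 3750) * v ^ 3 := by
  rcases le_total v (333 / 400) with g0 | g0
  · exact C2Two_A2_0 v h1 g0
  rcases le_total v (203 / 200) with g1 | g1
  · exact C2Two_A2_1 v g0 g1
  exact C2Two_A2_2 v g1 h2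

private theorem C2Two_A3_0 (v : ℝ) (h1 : (69 / 50) ≤ v) (h2 : v ≤ (357 / 200)) :
    0 ≤ (-341 / 1200) + (13341 / 25000) * v + (-1661 / 5000) * v ^ 2 +
      (1031 / 15000) * v ^ 3 := by
  have hx : 0 ≤ v - (69 / 50) := by linarith
  have hy : 0 ≤ (357 / 200) - v := by linarith
  have e : (-341 / 1200) + (13341 / 25000) * v + (-1661 / 5000) * v ^ 2 +
      (1031 / 15000) * v ^ 3 =
      (3765032 / 996451875) * ((v - (69 / 50)) ^ 0 * ((357 / 200) - v) ^ 3) +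
      (22911974 / 332150625) * ((v - (69 / 50)) ^ 1 * ((357 / 200) - v) ^ 2) +
      (5969761 / 664301250) * ((v - (69 / 50)) ^ 2 * ((357 / 200) - v) ^ 1) +
      (99785683 / 7971615000) * ((v - (69 / 50)) ^ 3 * ((357 / 200) - v) ^ 0) := by ring
  rw [e]; positivity

private theorem C2Two_A3_1 (v : ℝ) (h1 : (357 / 200) ≤ v) (h2 : v ≤ (219 / 100)) :
    0 ≤ (-341 / 1200) + (13341 / 25000) * v + (-1661 / 5000) * v ^ 2 +
      (1031 / 15000) * v ^ 3 := by
  have hx : 0 ≤ v - (357 / 200) := by linarith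
  have hy : 0 ≤ (219 / 100) - v := by linarith
  have e : (-341 / 1200) + (13341 / 25000) * v + (-1661 / 5000) * v ^ 2 +
      (1031 / 15000) * v ^ 3 =
      (99785683 / 7971615000) * ((v - (357 / 200)) ^ 0 * ((219 / 100) - v) ^ 3) +
      (87846161 / 1328602500) * ((v - (357 / 200)) ^ 1 * ((219 / 100) - v) ^ 2) +
      (121730587 / 664301250) * ((v - (357 / 200)) ^ 2 * ((219 / 100) - v) ^ 1) +
      (197673929 / 996451875) * ((v - (357 / 200)) ^ 3 * ((219 / 100) - v) ^ 0) := by ring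
  rw [e]; positivity

private theorem C2Two_A3_2 (v : ℝ) (h1 : (219 / 100) ≤ v) (h2 : v ≤ 3) :
    0 ≤ (-341 / 1200) + (13341 / 25000) * v + (-1661 / 5000) * v ^ 2 +
      (1031 / 15000) * v ^ 3 := by
  have hx : 0 ≤ v - (219 / 100) := by linarith
  have hy : 0 ≤ 3 - v := by linarith
  have e : (-341 / 1200) + (13341 / 25000) * v + (-1661 / 5000) * v ^ 2 +
      (1031 / 15000) * v ^ 3 =
      (197673929 / 7971615000) * ((v - (219 / 100)) ^ 0 * (3 - v) ^ 3) +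
      (2356456 / 13286025) * ((v - (219 / 100)) ^ 1 * (3 - v) ^ 2) +
      (1136528 / 2657205) * ((v - (219 / 100)) ^ 2 * (3 - v) ^ 1) +
      (548260 / 1594323) * ((v - (219 / 100)) ^ 3 * (3 - v) ^ 0) := by ring
  rw [e]; positivity

private theorem C2Two_A3 (v : ℝ) (h1 : (69 / 50) ≤ v) (h2 : v ≤ 3) :
    0 ≤ (-341 / 1200) + (13341 / 25000) * v + (-1661 / 5000) * v ^ 2 +
      (1031 / 15000) * v ^ 3 := by
  rcases le_total v (357 / 200) with g0 | g0
  · exact C2Two_A3_0 v h1 g0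
  rcases le_total v (219 / 100) with g1 | g1
  · exact C2Two_A3_1 v g0 g1
  exact C2Two_A3_2 v g1 h2

private theorem C2Two_A4 (v : ℝ) (h1 : 3 ≤ v) :
    0 ≤ (-341 / 1200) + (13341 / 25000) * v + (-1661 / 5000) * v ^ 2 +
      (1031 / 15000) * v ^ 3 := by
  have hx : 0 ≤ v - 3 := by linarith
  have e : (-341 / 1200) + (13341 / 25000) * v + (-1661 / 5000) * v ^ 2 +
      (1031 / 15000) * v ^ 3 =
      (27413 / 150000) * (v - 3) ^ 0 + (4953 / 12500) * (v - 3) ^ 1 + (179 / 625) * (v - 3) ^ 2 + (1031 / 15000) * (v - 3) ^ 3 := by ring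
  rw [e]; positivity

private theorem C2Two_F (x : ℝ) (h1 : 0 ≤ x) (h2 : x ≤ (8 / 25)) :
    0 ≤ (32183 / 6250000) + (6719 / 390625) * x ^ 2 + (-2926437 / 12500000) * x ^ 3 +
      (49153399 / 200000000) * x ^ 4 + (-3606639 / 6250000) * x ^ 5 + (23381597 / 50000000) * x ^ 6 +
      (-4733133 / 12500000) * x ^ 7 + (16662593 / 100000000) * x ^ 8 + (-10557 / 125000) * x ^ 9 +
      (-283367 / 2000000) * x ^ 10 + (-119029 / 1600000) * x ^ 12 := by
  have hx : 0 ≤ x - 0 := by linarith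
  have hy : 0 ≤ (8 / 25) - x := by linarith
  have e : (32183 / 6250000) + (6719 / 390625) * x ^ 2 + (-2926437 / 12500000) * x ^ 3 +
      (49153399 / 200000000) * x ^ 4 + (-3606639 / 6250000) * x ^ 5 + (23381597 / 50000000) * x ^ 6 +
      (-4733133 / 12500000) * x ^ 7 + (16662593 / 100000000) * x ^ 8 + (-10557 / 125000) * x ^ 9 +
      (-283367 / 2000000) * x ^ 10 + (-119029 / 1600000) * x ^ 12 =
      (4910736083984375 / 1099511627776) * ((x - 0) ^ 0 * ((8 / 25) - x) ^ 12) +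
      (14732208251953125 / 274877906944) * ((x - 0) ^ 1 * ((8 / 25) - x) ^ 11) +
      (162894165771484375 / 549755813888) * ((x - 0) ^ 2 * ((8 / 25) - x) ^ 10) +
      (272460836494140625 / 274877906944) * ((x - 0) ^ 3 * ((8 / 25) - x) ^ 9) +
      (2443015949022265625 / 1099511627776) * ((x - 0) ^ 4 * ((8 / 25) - x) ^ 8) +
      (480663551118453125 / 137438953472) * ((x - 0) ^ 5 * ((8 / 25) - x) ^ 7) +
      (1083020822783030625 / 274877906944) * ((x - 0) ^ 6 * ((8 / 25) - x) ^ 6) +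
      (436546539073158725 / 137438953472) * ((x - 0) ^ 7 * ((8 / 25) - x) ^ 5) +
      (1975720049577207193 / 1099511627776) * ((x - 0) ^ 8 * ((8 / 25) - x) ^ 4) +
      (187195527154492945 / 274877906944) * ((x - 0) ^ 9 * ((8 / 25) - x) ^ 3) +
      (2154888135407474687 / 13743895347200) * ((x - 0) ^ 10 * ((8 / 25) - x) ^ 2) +
      (118298494335908637 / 6871947673600) * ((x - 0) ^ 11 * ((8 / 25) - x) ^ 1) +
      (791494505420562083 / 3435973836800000) * ((x - 0) ^ 12 * ((8 / 25) - x) ^ 0) := by ring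
  rw [e]; positivity

/-- the majorant of `-log v` used for `n = 2` -/
theorem c2_p2 (v : ℝ) (hv : 0 < v) :
    0 ≤ 0.3825 + 0.3405 * v - 0.8322 * v ^ 2 + 0.1104 * v ^ 3 + v * Real.log v := by
  have l1 : (0.69314 : ℝ) ≤ Real.log 2 := by
    have := Real.log_two_gt_d9
    linarith
  have l2 : Real.log 2 ≤ (0.69315 : ℝ) := by
    have := Real.log_two_lt_d9
    linarith
  rcases le_total v (13 / 20) with h | h
  · have h1 := c2_log_lower (2 * v) (by positivity)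
    rw [Real.log_mul two_ne_zero hv.ne'] at h1
    have h2 : v * (-(Real.log 2 + Real.log v)) ≤
        v * (1 / (3 * (2 * v)) + 1 / 2 - 2 * v + (2 * v) ^ 2 / 6) :=
      mul_le_mul_of_nonneg_left h1 hv.le
    have h3 : v * (1 / (3 * (2 * v)) + 1 / 2 - 2 * v + (2 * v) ^ 2 / 6) =
        1 / 6 + v / 2 - 2 * v ^ 2 + 2 / 3 * v ^ 3 := by
      field_simp
      try ring
    rw [h3] at h2
    have h4 : v * Real.log 2 ≤ v * 0.69315 := mul_le_mul_of_nonneg_left l2 hv.le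
    have h5 := C2Two_A1 v hv.le h
    linarith
  rcases le_total v (69 / 50) with h' | h'
  · have h1 := c2_log_lower v hv
    have h2 : v * (-Real.log v) ≤ v * (1 / (3 * v) + 1 / 2 - v + v ^ 2 / 6) :=
      mul_le_mul_of_nonneg_left h1 hv.le
    have h3 : v * (1 / (3 * v) + 1 / 2 - v + v ^ 2 / 6) =
        1 / 3 + v / 2 - v ^ 2 + 1 / 6 * v ^ 3 := by
      field_simp
      try ring
    rw [h3] at h2
    have h5 := C2Two_A2 v h h'
    linarith
  · have h1 := c2_log_lower (v / 2) (by positivity)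
    rw [Real.log_div hv.ne' two_ne_zero] at h1
    have h2 : v * (-(Real.log v - Real.log 2)) ≤
        v * (1 / (3 * (v / 2)) + 1 / 2 - v / 2 + (v / 2) ^ 2 / 6) :=
      mul_le_mul_of_nonneg_left h1 hv.le
    have h3 : v * (1 / (3 * (v / 2)) + 1 / 2 - v / 2 + (v / 2) ^ 2 / 6) =
        2 / 3 + v / 2 - v ^ 2 / 2 + 1 / 24 * v ^ 3 := by
      field_simp
      try ring
    rw [h3] at h2
    have h4 : v * 0.69314 ≤ v * Real.log 2 := mul_le_mul_of_nonneg_left l1 hv.le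
    rcases le_total v 3 with h6 | h6
    · have h5 := C2Two_A3 v h' h6
      linarith
    · have h5 := C2Two_A4 v h6
      linarith

/-- the upper bound used for `n = 2` -/
noncomputable def BB2 (M r : ℝ) : ℝ :=
  -0.1166 * M + 0.000685 + 0.116925 * r + 0.00124 * M ^ 2 +
    1 / 2 * (0.3825 * M - 0.4917 + 0.1104 * r) ^ 2

private theorem C2Two_mono {M r s : ℝ} (hM : 1 ≤ M) (h0 : 0 ≤ r) (h : r ≤ s) :
    BB2 M r ≤ BB2 M s := by
  have e : BB2 M s - BB2 M r = (s - r) * (0.116925 + 0.1104 / 2 * (2 * (0.3825 * M - 0.4917) +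
      0.1104 * (r + s))) := by
    unfold BB2; ring
  have h1 : 0 ≤ (s - r) * (0.116925 + 0.1104 / 2 * (2 * (0.3825 * M - 0.4917) +
      0.1104 * (r + s))) := by
    refine mul_nonneg (sub_nonneg.mpr h) ?_
    nlinarith
  linarith

theorem bb2_two {θ r : ℝ} (h0 : 0 ≤ θ) (h1 : θ ≤ 1) (hr : 0 ≤ r)
    (h : r * (1 + θ ^ 2) ^ 2 ≤ 1 + 3 * θ ^ 2 + 2 * θ ^ 3) (h5 : r ≤ 9 / 8) :
    BB2 (1 + θ ^ 2) r ≤ 0.0074 := by
  have hN : 0 < (1 + θ ^ 2) ^ 2 := by positivity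
  rcases le_total θ (8 / 25) with h2 | h2
  · set ρ := (1 + 3 * θ ^ 2 + 2 * θ ^ 3) / (1 + θ ^ 2) ^ 2 with hρ
    have h3 : r ≤ ρ := by rw [hρ, le_div_iff₀ hN]; exact h
    refine (C2Two_mono (by nlinarith [sq_nonneg θ]) hr h3).trans ?_
    have h4 := C2Two_F θ h0 h2
    have h6 : ρ * (1 + θ ^ 2) ^ 2 = 1 + 3 * θ ^ 2 + 2 * θ ^ 3 := by
      rw [hρ, div_mul_cancel₀ _ hN.ne']
    have h7 : 0 ≤ (0.0074 - BB2 (1 + θ ^ 2) ρ) * ((1 + θ ^ 2) ^ 2) ^ 2 := by
      have e : (0.0074 - BB2 (1 + θ ^ 2) ρ) * ((1 + θ ^ 2) ^ 2) ^ 2 =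
          (0.0074 - (-0.1166 * (1 + θ ^ 2) + 0.000685 + 0.00124 * (1 + θ ^ 2) ^ 2)) *
            ((1 + θ ^ 2) ^ 2) ^ 2 - 0.116925 * (ρ * (1 + θ ^ 2) ^ 2) * (1 + θ ^ 2) ^ 2 -
            1 / 2 * ((0.3825 * (1 + θ ^ 2) - 0.4917) * (1 + θ ^ 2) ^ 2 +
              0.1104 * (ρ * (1 + θ ^ 2) ^ 2)) ^ 2 := by
        unfold BB2; ring
      rw [e, h6]
      refine h4.trans_eq ?_
      ring
    have h8 := nonneg_of_mul_nonneg_left h7 (by positivity)
    linarith
  · refine (C2Two_mono (by nlinarith [sq_nonneg θ]) hr h5).trans ?_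
    have h3 : (1 : ℝ) + (8 / 25) ^ 2 ≤ 1 + θ ^ 2 := by nlinarith
    have h4 : 1 + θ ^ 2 ≤ 2 := by nlinarith
    obtain ⟨M, hM⟩ : ∃ M : ℝ, M = 1 + θ ^ 2 := ⟨_, rfl⟩
    rw [← hM] at h3 h4 ⊢
    unfold BB2
    norm_num at h3
    nlinarith [mul_nonneg (sub_nonneg.mpr h3) (sub_nonneg.mpr h4)]

/-- `(1/4) log (256/243) - 0.0055 = 0.007528` -/
theorem tn_two : 1 / 2 * Real.log ((3 : ℝ) / 8) + 0.0075 < tn 2 := by
  have h := tn_eq 2 (by norm_num)
  have h1 : (521 / 10000 : ℝ) < Real.log (256 / 243) := by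
    rw [Real.lt_log_iff_exp_lt (by norm_num)]
    have := Real.exp_bound' (x := 521 / 10000) (by norm_num) (by norm_num) (n := 3) (by norm_num)
    simp only [Finset.sum_range_succ, Finset.sum_range_zero, Nat.factorial] at this
    norm_num at this
    refine this.trans_lt ?_
    norm_num
  have e1 : (((2 : ℕ) : ℝ) + 1) / (2 * (((2 : ℕ) : ℝ) + 2)) = 3 / 8 := by norm_num
  have e2 : (8 ^ 2 * ((Nat.factorial 2 : ℕ) : ℝ) ^ 2 / (((2 : ℕ) : ℝ) + 1) ^ (2 * 2 + 1)) =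
      256 / 243 := by
    norm_num [Nat.factorial]
  rw [e1, e2] at h
  rw [h]
  unfold X0
  norm_num at h1 ⊢
  linarith

end Vale.Agent.P254U
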